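import Vale.Agent.P265.H336.Local
import Vale.Agent.P216.H41.Fin3

/-!
# Ranks over a trivial cyclic covering (P216, block LOCAL)
-/

open Set Matrix

namespace Vale.Agent.P216.GM

open Vale.Agent.P265.AS Vale.Agent.P216.H41

/-- The rank of `χ`-equivariant cohomology over the disjoint union of `n` translates of a sheet is
at most the rank over the sheet. -/
theorem rk_le_sheet {E E' : Type} [PseudoMetricSpace E] [PseudoMetricSpace E'] {g : E → E} {n : ℕ}
    {k : Type} [Field k] {χ : k} (hχ : χ ^ n = 1)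
    {X A X' A' : Set E} (hA : A ⊆ X) (hX' : Inv g X') {D D' C C' : Set E'}
    {i : E' → E} {pr : E → E'} {σ : E → ℕ}
    (hi : IsMapP id id C C' X' A' i) (hpr : IsMapP g id X A D D' pr) (hDC : D ⊆ C)
    (hσg : ∀ x ∈ X, σ (g x) = if σ x + 1 < n then σ x + 1 else 0)
    (hσn : ∀ x ∈ X, σ x < n)
    (hσc : ∃ δ > 0, ∀ x ∈ X, ∀ y ∈ X, dist x y < δ → σ x = σ y)
    (hR : ∀ x ∈ X, g^[σ x] (i (pr x)) = x) (hC' : C' ⊆ C) (p : ℕ) :
    rk g χ X' A' X A p ≤ rk id (1 : k) C C' D D' p := by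
  refine qr_le_of_inj (pb i) ?_ ?_
  · rintro c ⟨hc, ε, hε, h1, h2⟩
    obtain ⟨δ, hδ, h3⟩ := hi.uc ε hε
    refine ⟨fun x _ => by simp, δ, hδ, fun x hx => ?_, fun x hx => ?_⟩
    · rw [d_pb, pb_apply, h1 _ (hx.map hi h3)]
    · exact h2 _ (hx.mapA hi hC' h3)
  · rintro c ⟨hc, -⟩ ⟨b, -, ε', hε', h1', h2'⟩
    obtain ⟨δ, hδ, hσδ⟩ := hσc
    obtain ⟨δ', hδ', hpr'⟩ := hpr.uc ε' hε'
    -- the primitive
    let s : (Fin p → E) → ℕ := fun x => if h : 0 < p then σ (x ⟨0, h⟩) else 0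
    let b' : (Fin p → E) → k := fun x => χ ^ s x * b (pr ∘ x)
    have hb' : Eqv g χ X b' := by
      intro x hx
      by_cases hp : 0 < p
      · have e1 : s (g ∘ x) = σ (g (x ⟨0, hp⟩)) := by simp [s, hp]
        have e2 : s x = σ (x ⟨0, hp⟩) := by simp [s, hp]
        have e3 : pr ∘ g ∘ x = pr ∘ x := funext fun j => hpr.eqv _ (hx j)
        have e4 : χ ^ s (g ∘ x) = χ * χ ^ s x := by
          rw [e1, e2, hσg _ (hx _)]
          split_ifs with h
          · rw [pow_succ']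
          · have : σ (x ⟨0, hp⟩) + 1 = n := by have := hσn _ (hx ⟨0, hp⟩); omega
            rw [pow_zero, ← pow_succ', this, hχ]
        change χ ^ s (g ∘ x) * b (pr ∘ g ∘ x) = χ * (χ ^ s x * b (pr ∘ x))
        rw [e3, e4, mul_assoc]
      · have hp0 : p = 0 := by omega
        subst hp0
        have e1 : b (pr ∘ (g ∘ x)) = 0 := h2' _ ⟨fun j => j.elim0, fun j => j.elim0⟩
        have e2 : b (pr ∘ x) = 0 := h2' _ ⟨fun j => j.elim0, fun j => j.elim0⟩
        change χ ^ s (g ∘ x) * b (pr ∘ g ∘ x) = χ * (χ ^ s x * b (pr ∘ x))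
        rw [e1, e2]; simp
    have hconst : ∀ {m : ℕ} {x : Fin (m + 1) → E}, Sm X δ x → ∀ j, σ (x j) = σ (x 0) :=
      fun hx j => hσδ _ (hx.1 _) _ (hx.1 _) (hx.2 _ _)
    refine ⟨b', hb', min δ δ', lt_min hδ hδ', fun x hx => ?_, fun x hx => ?_⟩
    · have hx1 := hconst (hx.mono le_rfl (min_le_left _ _))
      have e1 : x = g^[σ (x 0)] ∘ i ∘ pr ∘ x := by
        funext j
        have := hR _ (hx.1 j)
        rw [hx1 j] at this
        exact this.symm
      have e2 : Sm D ε' (pr ∘ x) :=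
        Sm.map (δ := δ') hpr hpr' (hx.mono le_rfl (min_le_right _ _))
      have e3 := h1' _ e2
      rw [pb_apply] at e3
      conv_lhs => rw [e1]
      rw [hc.iterate hX' _ (x := i ∘ pr ∘ x) fun j => hi.mapsX _ (hDC (e2.1 j)), e3]
      have e4 : d b' x = d (χ ^ σ (x 0) • pb pr b) x := by
        refine d_congr fun y hy => ?_
        change χ ^ s y * b (pr ∘ y) = χ ^ σ (x 0) * b (pr ∘ y)
        by_cases hp : 0 < p
        · obtain ⟨j, hj⟩ := hy ⟨0, hp⟩
          have : s y = σ (x 0) := by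
            simp only [s, hp, dif_pos]
            rw [hj, hx1 j]
          rw [this]
        · have hp0 : p = 0 := by omega
          subst hp0
          have e1 : b (pr ∘ y) = 0 := h2' _ ⟨fun j => j.elim0, fun j => j.elim0⟩
          rw [e1]; simp
      rw [e4, d_smul, Pi.smul_apply, d_pb, pb_apply, smul_eq_mul]
    · change χ ^ s x * b (pr ∘ x) = 0
      rw [h2' _ (Sm.mapA (δ := δ') hpr hA hpr' (hx.mono le_rfl (min_le_right _ _))), mul_zero]

end Vale.Agent.P216.GM
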