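import Vale.Agent.P216.GM.LR
import Vale.Agent.P216.GM.Sheet
import Vale.Agent.P216.H844.MilLoc
import Vale.Agent.P216.H494.Orbit
import Vale.Agent.P216.H494.CritCover
import Vale.Agent.P216.Hol.DC

/-!
# The blocks of LOCAL (P216, Theorem A): the uniform bound of the local ranks

All statements in the language of `GM/LR.lean` (local rank `LR X a K D` with two level parameters
`s < a < t`).  `XL M`, `PL M K`, `XT H` are the monotone families of sublevel sets of loops,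
polygons, and of the double cover.
-/

open Set

namespace Vale.Agent.P216.GM

open Vale.Agent.P265.AS Vale.Agent.P216.H41 L250 LS H288 H494 H844

section Families

variable (M : Type) [MetricSpace M]

/-- Loops of energy at most `s ^ 2`. -/
def XL (s : ℝ) : Set (LM M) := XE M (max s 0)

/-- Polygons of energy at most `s ^ 2`. -/
def PL (K : ℕ) [NeZero K] (s : ℝ) : Set (ZMod K → M) := Pl M K (max s 0)

variable {M}

/-- The double cover. -/
def XT (H : Hol M) (s : ℝ) : Set (LM M × ℂ) := Xt H (max s 0)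

theorem XL_eq {s : ℝ} (hs : 0 ≤ s) : XL M s = XE M s := by rw [XL, max_eq_left hs]

theorem PL_eq {K : ℕ} [NeZero K] {s : ℝ} (hs : 0 ≤ s) : PL M K s = Pl M K s := by
  rw [PL, max_eq_left hs]

theorem XT_eq {H : Hol M} {s : ℝ} (hs : 0 ≤ s) : XT H s = Xt H s := by rw [XT, max_eq_left hs]

theorem XL_mono : Monotone (XL M) := fun _ _ h => XE_mono (le_max_right _ _) (max_le_max_right _ h)

theorem PL_mono {K : ℕ} [NeZero K] : Monotone (PL M K) := fun _ _ h =>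
  Pl_mono (le_max_right _ _) (max_le_max_right _ h)

theorem XT_mono {H : Hol M} : Monotone (XT H) := fun _ _ h =>
  Xt_mono (le_max_right _ _) (max_le_max_right _ h)

end Families

/-- A sequence of total at most `N`. -/
def Tot (D : ℕ → ℕ) (N : ℕ) : Prop := ∀ n, ∑ q ∈ Finset.range n, D q ≤ N

/-- Shift by `l`. -/
def shf (l : ℕ) (D : ℕ → ℕ) (q : ℕ) : ℕ := if q < l then 0 else D (q - l)

/-- What the passage from a point to its orbit does. -/
def dbl (D : ℕ → ℕ) (q : ℕ) : ℕ := 2 * D q + 2 * (if q = 0 then 0 else D (q - 1))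

/-- **Twisted local rank** along `K`, for the deck transformation `g` and the character `-1`. -/
def LT {E : Type} [PseudoMetricSpace E] (g : E → E) (X : ℝ → Set E) (a : ℝ) (K : Set E)
    (D : ℕ → ℕ) : Prop :=
  ∀ r > 0, ∃ r' > 0, ∃ e₀ > 0, ∀ s t, a - e₀ < s → s < a → a < t → t < a + e₀ →
    ∀ (k : Type) [Field k] (q : ℕ),
      rk g (-1 : k) (nb K r ∩ X t) (nb K r ∩ X s) (nb K r' ∩ X t) (nb K r' ∩ X s) q ≤
        (D q : Cardinal)

/-! ### The statements -/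

section Statements

variable (M : Type) [MetricSpace M]

/-- **F2** (helper337): from a critical loop to its orbit. -/
def F2 : Prop := ∀ (G : GeoList M) (e a : ℝ), (e = 1 ∨ e = -1) → 0 < a → ∀ g ∈ G.KK e a,
  ∀ D, LR (XL M) a {g} D → LR (XL M) a (orb g) (dbl D)

/-- **F3a** (helper581): from polygons to loops; only local shortness is assumed. -/
def F3a : Prop := ∀ (ρ r : ℝ), UniqSeg M ρ → 0 ≤ r → r < ρ → ∀ (K : ℕ) [NeZero K] (a : ℝ),
  0 < a → ∀ g ∈ XE M a, (∀ u ∈ Icc (0 : ℝ) 1, MiL K u g = g) → Sht K r (fn g) →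
  ∀ D, LR (PL M K) a {sampleL K g} D → LR (XL M) a {g} D

/-- **F3b** (helper651): from `K q`-gons to `K`-gons. -/
def F3b : Prop := ∀ (ρ r : ℝ), UniqSeg M ρ → 0 ≤ r → r < ρ → ∀ (K q : ℕ) [NeZero K] [NeZero q]
  (a : ℝ), 0 < a → ∀ g ∈ XE M a, (∀ u ∈ Icc (0 : ℝ) 1, MiL K u g = g) → Sht K r (fn g) →
  ∀ D, LR (PL M (q * K)) a {sampleL (q * K) g} D → LR (PL M K) a {sampleL K g} D

/-- The polygon of the values of `c j` at the multiples of `ℓ j / k₀`, with orientation `e`. -/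
noncomputable def gpol (G : GeoList M) (e : ℝ) (j : G.ι) (k₀ : ℕ) : ZMod k₀ → M :=
  fun i => G.c j (e * G.ℓ j * (i.val / k₀))

/-- **F4** (helper844, helper447, helper391): elimination of the transversal directions. -/
def F4 : Prop := ∀ (G : GeoList M) (e : ℝ), (e = 1 ∨ e = -1) → ∀ j : G.ι,
  ∀ N₀ : ℕ, ∃ k₀ : ℕ, N₀ ≤ k₀ ∧ ∃ B : ℕ, 0 < B ∧ ∀ m : ℕ, 0 < m → ∀ (g : LM M) (g' : LM M),
    (∀ t, fn g t = G.c j (e * (m * G.ℓ j) * t)) →
    (∀ t, fn g' t = G.c j (e * (m.gcd B * G.ℓ j) * t)) →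
    ∀ [NeZero (k₀ * m)] [NeZero (k₀ * m.gcd B)] (D : ℕ → ℕ),
      LR (PL M (k₀ * m.gcd B)) (m.gcd B * G.ℓ j) {sampleL (k₀ * m.gcd B) g'} D →
      ∃ l : ℕ, LR (PL M (k₀ * m)) (m * G.ℓ j) {sampleL (k₀ * m) g} (shf l D)

/-- **F5** (helper319): finiteness. -/
def F5 : Prop := ∀ (ρ : ℝ), 0 < ρ → UniqSeg M ρ → ∀ (G : GeoList M) (e : ℝ), (e = 1 ∨ e = -1) →
  ∀ a : ℝ, 0 < a → ∀ g ∈ G.KK e a, ∀ (K : ℕ) [NeZero K], (a + 1) ^ 2 < K * ρ ^ 2 →
  ∃ (N : ℕ) (D : ℕ → ℕ), Tot D N ∧ LR (PL M K) a {sampleL K g} D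

/-- **LOC** (helper651): F2-F5 together; `N` does not depend on the level. -/
def LOC : Prop := ∀ (G : GeoList M), ∃ N : ℕ, ∀ (e a : ℝ), (e = 1 ∨ e = -1) → 0 < a →
  ∀ g ∈ G.KK e a, ∃ D : ℕ → ℕ, Tot D N ∧ LR (XL M) a (orb g) D

/-- **TW** (helper651): the twisted local rank in the double cover. -/
def TW : Prop := ∀ (H : Hol M) (G : GeoList M) (e a : ℝ), (e = 1 ∨ e = -1) → 0 < a →
  ∀ g ∈ G.KK e a, ∀ D, LR (XL M) a (orb g) D → LT deckC (XT H) a (cov H (orb g)) D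

/-- **F1** (helper804): at a critical level; the finitely many orbits `R` of the critical level
`a`, each with its bound `D g`. -/
def F1 : Prop := ∀ (H : Hol M) (G : GeoList M) (a : ℝ), 0 < a → ∀ R : Finset (LM M),
  (↑R : Set (LM M)) ⊆ G.KK 1 a ∪ G.KK (-1) a → G.KK 1 a ∪ G.KK (-1) a = ⋃ g ∈ R, orb g →
  (∀ g ∈ R, ∀ g' ∈ R, g ≠ g' → Disjoint (orb g) (orb g')) → ∀ D : LM M → ℕ → ℕ,
  (∀ g ∈ R, LT deckC (XT H) a (cov H (orb g)) (D g)) →
  ∃ e₀ > 0, ∀ s t, a - e₀ < s → s < a → a < t → t < a + e₀ → ∀ (k : Type) [Field k] (q : ℕ),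
    hh deckC (-1 : k) (XT H t) (XT H s) q ≤ ((∑ g ∈ R, D g q : ℕ) : Cardinal)

end Statements

end Vale.Agent.P216.GM
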