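import Vale.Agent.P216.GM.Orbit
import Vale.Agent.P216.GM.Spec

/-!
# F2: from a critical loop to its orbit (P216, block LOCAL)
-/

open Set Filter Topology

namespace Vale.Agent.P216.GM

open L250 H494

variable {M : Type} [MetricSpace M]

theorem isCompact_XL [CompactSpace M] (s : ℝ) : IsCompact (XL M s) :=
  isCompact_XE (le_max_right _ _)

theorem rotOn_XL : RotOn (XL M) (fun t g => L250.rot t g) where
  zero := rot_zero
  add s t x := (rot_rot s t x).symm
  maps s t x hx := L250.rot_mem hx t
  cont s := by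
    rintro ⟨b, g⟩ ⟨-, hg⟩
    rw [ContinuousWithinAt, tendsto_iff_dist_tendsto_zero]
    have h0 : (0 : ℝ) ≤ max s 0 := le_max_right _ _
    have hcont : Continuous fun q : ℝ × LM M =>
        dist q.2 g + max s 0 * Real.sqrt |q.1 - b| := by fun_prop
    have hlim := (hcont.tendsto (b, g)).mono_left
      (nhdsWithin_le_nhds (s := (univ : Set ℝ) ×ˢ XL M s))
    simp only [dist_self, sub_self, abs_zero, Real.sqrt_zero, mul_zero, add_zero] at hlim
    refine squeeze_zero (fun _ => dist_nonneg) (fun q => ?_) hlim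
    calc dist (L250.rot q.1 q.2) (L250.rot b g)
        ≤ dist (L250.rot q.1 q.2) (L250.rot q.1 g) + dist (L250.rot q.1 g) (L250.rot b g) :=
          dist_triangle _ _ _
      _ ≤ dist q.2 g + max s 0 * Real.sqrt |q.1 - b| :=
          add_le_add ((isometry_rot q.1).dist_eq _ _).le (dist_rot_le h0 hg _ _)

/-- **F2.** -/
theorem f2 [CompactSpace M] : F2 M := by
  intro G e a he ha g hg D hD
  obtain ⟨m, hm, hmg⟩ := exists_mult he ha hg
  have hmpos : (0 : ℝ) < m := by exact_mod_cast hm
  have hgX : g ∈ XL M a := by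
    rw [XL_eq ha.le]
    exact KK_subset_XE he ha.le hg
  refine LR.orbit' rotOn_XL XL_mono isCompact_XL hgX (τ := 1 / m) (by positivity) ?_ ?_ hD
  · have h1 := (hmg (1 / m) 0).2 ⟨1, by rw [sub_zero, Int.cast_one]⟩
    rw [rot_zero] at h1
    exact h1
  · intro t ht
    obtain ⟨n, hn⟩ := (hmg t 0).1 (by rw [rot_zero]; exact ht)
    exact ⟨n, by rw [sub_zero] at hn; rw [hn]; ring⟩

end Vale.Agent.P216.GM
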