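import Vale.Agent.P216.GM.Lrk
import Mathlib.Analysis.Convex.Mul

/-! The elimination theorem: the local rank of a function on a box `K × C × Q`, strictly convex
in `C ⊂ N`, strongly concave in the cube `Q ⊂ ℝ^b`, is at most the local rank of the restriction
to `K`, with a shift of the degree by `b`. -/

open Set Matrix

namespace Vale.Agent.P216.G447

open Vale.Agent.P265.AS Vale.Agent.P216.H41

/-- The cube `[-ρ, ρ]^b`. -/
def Cube (ρ : ℝ) (b : ℕ) : Set (Fin b → ℝ) := Set.pi univ fun _ => Icc (-ρ) ρ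

theorem mem_cube {ρ : ℝ} {b : ℕ} {z : Fin b → ℝ} : z ∈ Cube ρ b ↔ ∀ j, z j ∈ Icc (-ρ) ρ := by
  simp only [Cube, mem_univ_pi]

theorem isCompact_cube (ρ : ℝ) (b : ℕ) : IsCompact (Cube ρ b) :=
  isCompact_univ_pi fun _ => isCompact_Icc

theorem convex_cube (ρ : ℝ) (b : ℕ) : Convex ℝ (Cube ρ b) :=
  convex_pi fun _ _ => convex_Icc _ _

theorem zero_mem_cube {ρ : ℝ} (hρ : 0 ≤ ρ) (b : ℕ) : (0 : Fin b → ℝ) ∈ Cube ρ b :=
  mem_cube.2 fun _ => ⟨by simpa using hρ, hρ⟩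

theorem cube_eq_closedBall {ρ : ℝ} (hρ : 0 ≤ ρ) (b : ℕ) :
    Cube ρ b = Metric.closedBall 0 ρ := by
  ext z
  rw [mem_cube, mem_closedBall_zero_iff, pi_norm_le_iff_of_nonneg hρ]
  simp only [mem_Icc, Real.norm_eq_abs, abs_le]

theorem cons_mem_cube {ρ : ℝ} {b : ℕ} {w : ℝ} {z : Fin b → ℝ} (hw : w ∈ Icc (-ρ) ρ)
    (hz : z ∈ Cube ρ b) : vecCons w z ∈ Cube ρ (b + 1) := by
  rw [mem_cube] at hz ⊢
  intro j
  refine Fin.cases ?_ (fun j => ?_) j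
  · exact hw
  · exact hz j

theorem sum_cons_sq {b : ℕ} (w : ℝ) (z : Fin b → ℝ) :
    ∑ j, vecCons w z j ^ 2 = w ^ 2 + ∑ j, z j ^ 2 := by
  rw [Fin.sum_univ_succ]
  rfl

theorem comb_cons {b : ℕ} (a c w w' : ℝ) (z z' : Fin b → ℝ) :
    a • vecCons w z + c • vecCons w' z' = vecCons (a * w + c * w') (a • z + c • z') := by
  funext j
  refine Fin.cases ?_ (fun j => ?_) j <;> simp

section

variable {Y : Type} [PseudoMetricSpace Y] {k : Type} [Field k]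

/-- Hypotheses of the elimination of concave variables. -/
structure ConcBox (K : Set Y) (δ ρ : ℝ) (s : ℝ) {b : ℕ} (F : Y × (Fin b → ℝ) → ℝ) : Prop where
  cont : ContinuousOn F (K ×ˢ Cube ρ b)
  conc : ∀ y ∈ K, ConcaveOn ℝ (Cube ρ b) fun z => F (y, z) + δ * ∑ j, z j ^ 2
  le : ∀ y ∈ K, ∀ z ∈ Cube ρ b, F (y, z) ≤ F (y, 0) - δ * ∑ j, z j ^ 2
  low : ∀ y ∈ K, F (y, 0) - δ * ρ ^ 2 ≤ s

/-- One step of the elimination. -/
theorem ConcBox.step {K : Set Y} {δ ρ s : ℝ} (hδ : 0 < δ) (hρ : 0 ≤ ρ) {b : ℕ}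
    {F : Y × (Fin (b + 1) → ℝ) → ℝ} (h : ConcBox K δ ρ s F) :
    ∃ ω : Y × (Fin b → ℝ) → ℝ, (∀ x, ω x ∈ Icc (-ρ) ρ) ∧ ContinuousOn ω (K ×ˢ Cube ρ b) ∧
      (∀ x ∈ K ×ˢ Cube ρ b, ∀ w ∈ Icc (-ρ) ρ,
        F (x.1, vecCons w x.2) ≤ F (x.1, vecCons (ω x) x.2)) ∧
      (∀ y ∈ K, ω (y, 0) = 0) ∧
      ConcBox K δ ρ s (fun x : Y × (Fin b → ℝ) => F (x.1, vecCons (ω x) x.2)) := by
  have hcons : Continuous fun q : (Y × (Fin b → ℝ)) × ℝ => (q.1.1, vecCons q.2 q.1.2) := by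
    refine (continuous_fst.comp continuous_fst).prodMk ?_
    exact Continuous.matrixVecCons continuous_snd (continuous_snd.comp continuous_fst)
  have hmaps : ∀ q : (Y × (Fin b → ℝ)) × ℝ, q ∈ (K ×ˢ Cube ρ b) ×ˢ Icc (-ρ) ρ →
      (q.1.1, vecCons q.2 q.1.2) ∈ K ×ˢ Cube ρ (b + 1) :=
    fun q hq => ⟨hq.1.1, cons_mem_cube hq.2 hq.1.2⟩
  have hcont : ContinuousOn (fun q : (Y × (Fin b → ℝ)) × ℝ => F (q.1.1, vecCons q.2 q.1.2))
      ((K ×ˢ Cube ρ b) ×ˢ Icc (-ρ) ρ) := h.cont.comp hcons.continuousOn hmaps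
  -- uniqueness of the maximiser
  have huniq : ∀ x ∈ K ×ˢ Cube ρ b, ∀ w ∈ Icc (-ρ) ρ, ∀ w' ∈ Icc (-ρ) ρ,
      (∀ v ∈ Icc (-ρ) ρ, -F (x.1, vecCons w x.2) ≤ -F (x.1, vecCons v x.2)) →
      (∀ v ∈ Icc (-ρ) ρ, -F (x.1, vecCons w' x.2) ≤ -F (x.1, vecCons v x.2)) → w = w' := by
    intro x hx w hw w' hw' h1 h2
    have e : F (x.1, vecCons w x.2) = F (x.1, vecCons w' x.2) := by
      have a := h1 w' hw'
      have b := h2 w hw
      linarith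
    have hc := (h.conc x.1 hx.1).2 (cons_mem_cube hw hx.2) (cons_mem_cube hw' hx.2)
      (show (0 : ℝ) ≤ 1 / 2 by norm_num) (show (0 : ℝ) ≤ 1 / 2 by norm_num) (by norm_num)
    have hmid : 1 / 2 * w + 1 / 2 * w' ∈ Icc (-ρ) ρ := by
      constructor <;> [linarith [hw.1, hw'.1]; linarith [hw.2, hw'.2]]
    have hm := h1 _ hmid
    have hz : (1 / 2 : ℝ) • x.2 + (1 / 2 : ℝ) • x.2 = x.2 := by
      rw [← add_smul]; norm_num
    rw [comb_cons, hz] at hc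
    simp only [sum_cons_sq, smul_eq_mul] at hc
    have hsq : (w - w') ^ 2 ≤ 0 := by
      nlinarith
    have := pow_eq_zero_iff (two_ne_zero) |>.1 (le_antisymm hsq (sq_nonneg _))
    linarith
  obtain ⟨ω, hω1, hω2, hω3⟩ := exists_argmin
    (F := fun (x : Y × (Fin b → ℝ)) (w : ℝ) => -F (x.1, vecCons w x.2)) (S := K ×ˢ Cube ρ b)
    (isCompact_Icc (a := -ρ) (b := ρ)) ⟨0, by simpa using hρ, hρ⟩ hcont.neg huniq
  have hmax : ∀ x ∈ K ×ˢ Cube ρ b, ∀ w ∈ Icc (-ρ) ρ,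
      F (x.1, vecCons w x.2) ≤ F (x.1, vecCons (ω x) x.2) := fun x hx w hw => by
    have := hω2 x hx w hw
    linarith
  have h00 : ∀ b : ℕ, vecCons (0 : ℝ) (0 : Fin b → ℝ) = 0 := fun b => by
    funext j
    refine Fin.cases ?_ (fun j => ?_) j <;> simp
  have hz0 : ∀ y ∈ K, ω (y, 0) = 0 := by
    intro y hy
    have h1 := hmax (y, 0) ⟨hy, zero_mem_cube hρ b⟩ 0 ⟨by simpa using hρ, hρ⟩
    have h2 := h.le y hy _ (cons_mem_cube (hω1 (y, 0)) (zero_mem_cube hρ b))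
    simp only [h00, sum_cons_sq, Pi.zero_apply, ne_eq, OfNat.ofNat_ne_zero, not_false_eq_true,
      zero_pow, Finset.sum_const_zero, add_zero] at h1 h2
    have h3 : ω (y, 0) ^ 2 ≤ 0 := by
      by_contra hcon
      push Not at hcon
      have := mul_pos hδ hcon
      linarith
    exact pow_eq_zero_iff (two_ne_zero) |>.1 (le_antisymm h3 (sq_nonneg _))
  refine ⟨ω, hω1, hω3, hmax, hz0, ?_, ?_, ?_, ?_⟩
  · have : ContinuousOn (fun x : Y × (Fin b → ℝ) => (x, ω x)) (K ×ˢ Cube ρ b) :=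
      continuousOn_id.prodMk hω3
    exact hcont.comp this fun x hx => ⟨hx, hω1 x⟩
  · intro y hy
    refine ⟨convex_cube _ _, fun z hz z' hz' a c ha hc hac => ?_⟩
    have h1 := (h.conc y hy).2 (cons_mem_cube (hω1 (y, z)) hz) (cons_mem_cube (hω1 (y, z')) hz')
      ha hc hac
    rw [comb_cons] at h1
    simp only [sum_cons_sq, smul_eq_mul] at h1 ⊢
    have hmem : a * ω (y, z) + c * ω (y, z') ∈ Icc (-ρ) ρ :=
      convex_Icc _ _ (hω1 (y, z)) (hω1 (y, z')) ha hc hac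
    have h2 := hmax (y, a • z + c • z') ⟨hy, convex_cube _ _ hz hz' ha hc hac⟩ _ hmem
    have h3 : (a * ω (y, z) + c * ω (y, z')) ^ 2 ≤ a * ω (y, z) ^ 2 + c * ω (y, z') ^ 2 := by
      have e : c = 1 - a := by linarith
      subst e
      nlinarith [mul_nonneg ha hc, sq_nonneg (ω (y, z) - ω (y, z'))]
    have h4 := mul_le_mul_of_nonneg_left h3 hδ.le
    simp only at h2
    nlinarith
  · intro y hy z hz
    have h1 := h.le y hy _ (cons_mem_cube (hω1 (y, z)) hz)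
    simp only [sum_cons_sq] at h1
    simp only [hz0 y hy, h00]
    nlinarith [mul_nonneg hδ.le (sq_nonneg (ω (y, z)))]
  · intro y hy
    simp only [hz0 y hy, h00]
    exact h.low y hy

theorem ConcBox.bd {K : Set Y} {δ ρ s : ℝ} (hδ : 0 < δ) {b : ℕ}
    {F : Y × (Fin (b + 1) → ℝ) → ℝ} (h : ConcBox K δ ρ s F) {x : Y × (Fin b → ℝ)}
    (hx : x ∈ K ×ˢ Cube ρ b) {w : ℝ} (hw : w ∈ Icc (-ρ) ρ) (hw2 : w ^ 2 = ρ ^ 2) :
    F (x.1, vecCons w x.2) ≤ s := by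
  have h1 := h.le x.1 hx.1 _ (cons_mem_cube hw hx.2)
  have h2 := h.low x.1 hx.1
  rw [sum_cons_sq, hw2] at h1
  have h3 : 0 ≤ ∑ j, x.2 j ^ 2 := Finset.sum_nonneg fun _ _ => sq_nonneg _
  nlinarith [mul_nonneg hδ.le h3]

theorem ConcBox.concOne {K : Set Y} {δ ρ s : ℝ} (hδ : 0 < δ) {b : ℕ}
    {F : Y × (Fin (b + 1) → ℝ) → ℝ} (h : ConcBox K δ ρ s F) {x : Y × (Fin b → ℝ)}
    (hx : x ∈ K ×ˢ Cube ρ b) : ConcaveOn ℝ (Icc (-ρ) ρ) fun w => F (x.1, vecCons w x.2) := by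
  refine ⟨convex_Icc _ _, fun w hw w' hw' a c ha hc hac => ?_⟩
  have h1 := (h.conc x.1 hx.1).2 (cons_mem_cube hw hx.2) (cons_mem_cube hw' hx.2) ha hc hac
  have hz : a • x.2 + c • x.2 = x.2 := by rw [← add_smul, hac, one_smul]
  rw [comb_cons, hz] at h1
  simp only [sum_cons_sq, smul_eq_mul] at h1 ⊢
  have h3 : (a * w + c * w') ^ 2 ≤ a * w ^ 2 + c * w' ^ 2 := by
    have e : c = 1 - a := by linarith
    subst e
    nlinarith [mul_nonneg ha hc, sq_nonneg (w - w')]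
  have h4 := mul_le_mul_of_nonneg_left h3 hδ.le
  have h5 : a * (δ * ∑ j, x.2 j ^ 2) + c * (δ * ∑ j, x.2 j ^ 2) = δ * ∑ j, x.2 j ^ 2 := by
    rw [← add_mul, hac, one_mul]
  nlinarith

variable {χ : k} {K K' : Set Y} {δ ρ t s t' s' : ℝ}

/-- Split off the first variable. -/
private theorem split_first (cK : IsCompact K) (cK' : IsCompact K') (hKK : K' ⊆ K) {b : ℕ}
    (F : Y × (Fin (b + 1) → ℝ) → ℝ)
    (hst : s ≤ t) (hst' : s' ≤ t') (htt : t' ≤ t) (hss : s' ≤ s) (p : ℕ) :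
    lrk χ F (K ×ˢ Cube ρ (b + 1)) t s (K' ×ˢ Cube ρ (b + 1)) t' s' p ≤
      lrk χ (fun q : (Y × (Fin b → ℝ)) × ℝ => F (q.1.1, vecCons q.2 q.1.2))
        ((K ×ˢ Cube ρ b) ×ˢ Icc (-ρ) ρ) t s ((K' ×ˢ Cube ρ b) ×ˢ Icc (-ρ) ρ) t' s' p := by
  refine lrk_le_of_equiv
    (ψ := fun q : (Y × (Fin b → ℝ)) × ℝ => (q.1.1, vecCons q.2 q.1.2))
    (φ := fun x : Y × (Fin (b + 1) → ℝ) => ((x.1, vecTail x.2), vecHead x.2))
    ((cK.prod (isCompact_cube ρ b)).prod isCompact_Icc) (cK'.prod (isCompact_cube ρ _))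
    ?_ ?_ ?_ ?_ ?_ ?_ hst hst' htt hss p
  · refine Continuous.continuousOn ((continuous_fst.comp continuous_fst).prodMk ?_)
    exact Continuous.matrixVecCons continuous_snd (continuous_snd.comp continuous_fst)
  · refine Continuous.continuousOn ((continuous_fst.prodMk ?_).prodMk ?_)
    · exact continuous_pi fun j => (continuous_apply j.succ).comp continuous_snd
    · exact (continuous_apply 0).comp continuous_snd
  · exact fun q hq => ⟨⟨hq.1.1, cons_mem_cube hq.2 hq.1.2⟩, le_rfl⟩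
  · intro x hx
    refine ⟨⟨⟨hx.1, mem_cube.2 fun j => mem_cube.1 hx.2 j.succ⟩, mem_cube.1 hx.2 0⟩, ?_⟩
    simp
  · exact fun x hx => ⟨hKK hx.1, hx.2⟩
  · intro x _
    simp

/-- **Elimination of concave variables.** -/
theorem lrk_elim_concave (cK : IsCompact K) (cK' : IsCompact K') (hKK : K' ⊆ K) (hδ : 0 < δ)
    (hρ : 0 ≤ ρ) (hst : s ≤ t) (hst' : s' ≤ t') (htt : t' ≤ t) (hss : s' ≤ s) (b : ℕ) :
    ∀ (F : Y × (Fin b → ℝ) → ℝ), ConcBox K δ ρ s F →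
      (∀ p, lrk χ F (K ×ˢ Cube ρ b) t s (K' ×ˢ Cube ρ b) t' s' (p + b) ≤
        lrk χ (fun y => F (y, 0)) K t s K' t' s' p) ∧
      ∀ p < b, lrk χ F (K ×ˢ Cube ρ b) t s (K' ×ˢ Cube ρ b) t' s' p = 0 := by
  induction b with
  | zero =>
    intro F hF
    refine ⟨fun p => ?_, fun p hp => absurd hp (Nat.not_lt_zero p)⟩
    refine lrk_le_of_equiv (ψ := fun y => (y, (0 : Fin 0 → ℝ))) (φ := Prod.fst) cK
      (cK'.prod (isCompact_cube ρ 0)) (by fun_prop) continuous_fst.continuousOn ?_ ?_ ?_ ?_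
      hst hst' htt hss p
    · exact fun y hy => ⟨⟨hy, zero_mem_cube hρ 0⟩, le_rfl⟩
    · intro x hx
      refine ⟨hx.1, le_of_eq ?_⟩
      rw [Subsingleton.elim (0 : Fin 0 → ℝ) x.2]
    · exact fun x hx => ⟨hKK hx.1, hx.2⟩
    · intro x _
      rw [Subsingleton.elim (0 : Fin 0 → ℝ) x.2]
  | succ b ih =>
    intro F hF
    obtain ⟨ω, hω1, hω2, hω3, hω4, hF'⟩ := hF.step hδ hρ
    have hρρ : ρ ∈ Icc (-ρ) ρ := ⟨by linarith, le_rfl⟩
    have hρρ' : -ρ ∈ Icc (-ρ) ρ := ⟨le_rfl, by linarith⟩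
    have hbd : ∀ x ∈ K ×ˢ Cube ρ b, F (x.1, vecCons ρ x.2) ≤ s ∧ F (x.1, vecCons (-ρ) x.2) ≤ s :=
      fun x hx => ⟨hF.bd hδ hx hρρ rfl, hF.bd hδ hx hρρ' (by ring)⟩
    have hcontG : ContinuousOn (fun q : (Y × (Fin b → ℝ)) × ℝ => F (q.1.1, vecCons q.2 q.1.2))
        ((K ×ˢ Cube ρ b) ×ˢ Icc (-ρ) ρ) := by
      refine hF.cont.comp (Continuous.continuousOn ?_) fun q hq =>
        ⟨hq.1.1, cons_mem_cube hq.2 hq.1.2⟩
      exact (continuous_fst.comp continuous_fst).prodMk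
        (Continuous.matrixVecCons continuous_snd (continuous_snd.comp continuous_fst))
    obtain ⟨ih1, ih2⟩ := ih _ hF'
    have step := fun p => lrk_elim_max (χ := χ) (cK.prod (isCompact_cube ρ b))
      (cK'.prod (isCompact_cube ρ b)) (prod_mono hKK le_rfl) hcontG
      (fun x hx => hF.concOne hδ hx) (fun x _ => hω1 x) hω2 hω3 hbd hst hst' htt hss p
    have step0 := lrk_elim_max_zero (χ := χ) (cK.prod (isCompact_cube ρ b))
      (F := fun q : (Y × (Fin b → ℝ)) × ℝ => F (q.1.1, vecCons q.2 q.1.2))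
      (T := K' ×ˢ Cube ρ b) (prod_mono hKK le_rfl)
      (fun x hx => hF.concOne hδ hx) (fun x _ => hω1 x) hω3 hbd hst (s' := s') htt
    refine ⟨fun p => ?_, fun p hp => ?_⟩
    · refine (split_first cK cK' hKK F hst hst' htt hss (p + (b + 1))).trans ?_
      refine (step (p + b)).trans ((ih1 p).trans (le_of_eq ?_))
      have h00 : vecCons (0 : ℝ) (0 : Fin b → ℝ) = 0 := by
        funext j
        refine Fin.cases ?_ (fun j => ?_) j <;> simp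
      have key : ∀ y ∈ K, F (y, vecCons (ω (y, 0)) 0) = F (y, 0) := fun y hy => by
        rw [hω4 y hy, h00]
      exact lrk_congr key (fun y hy => key y (hKK hy)) t s t' s' p
    · refine le_antisymm ?_ zero_le
      refine (split_first cK cK' hKK F hst hst' htt hss p).trans ?_
      cases p with
      | zero => exact step0.le
      | succ p => exact (step p).trans (ih2 p (by omega)).le

end

/-! ### Convex and concave variables -/

section box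

variable {Y N : Type} [PseudoMetricSpace Y] [NormedAddCommGroup N] [NormedSpace ℝ N]
  {k : Type} [Field k]

/-- Hypotheses of the elimination theorem: `F` on `K × C × [-ρ, ρ]^b`. -/
structure SaddleBox (K : Set Y) (C : Set N) (δ ρ : ℝ) (s : ℝ) {b : ℕ}
    (F : Y × N × (Fin b → ℝ) → ℝ) : Prop where
  cont : ContinuousOn F (K ×ˢ C ×ˢ Cube ρ b)
  conv : ∀ y ∈ K, ∀ w ∈ Cube ρ b, StrictConvexOn ℝ C fun z => F (y, z, w)
  conc : ∀ y ∈ K, ∀ z ∈ C, ConcaveOn ℝ (Cube ρ b) fun w => F (y, z, w) + δ * ∑ j, w j ^ 2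
  ge : ∀ y ∈ K, ∀ z ∈ C, F (y, 0, 0) ≤ F (y, z, 0)
  le : ∀ y ∈ K, ∀ w ∈ Cube ρ b, F (y, 0, w) ≤ F (y, 0, 0) - δ * ∑ j, w j ^ 2
  low : ∀ y ∈ K, F (y, 0, 0) - δ * ρ ^ 2 ≤ s

/-- **The elimination theorem.** -/
theorem lrk_box {χ : k} {K K' : Set Y} {C : Set N} {δ ρ t s t' s' : ℝ} {b : ℕ}
    {F : Y × N × (Fin b → ℝ) → ℝ} (cK : IsCompact K) (cK' : IsCompact K') (hKK : K' ⊆ K)
    (cC : IsCompact C) (h0 : (0 : N) ∈ C) (hδ : 0 < δ) (hρ : 0 ≤ ρ)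
    (hF : SaddleBox K C δ ρ s F) (hst : s ≤ t) (hst' : s' ≤ t') (htt : t' ≤ t) (hss : s' ≤ s) :
    (∀ p, lrk χ F (K ×ˢ C ×ˢ Cube ρ b) t s (K' ×ˢ C ×ˢ Cube ρ b) t' s' (p + b) ≤
      lrk χ (fun y => F (y, 0, 0)) K t s K' t' s' p) ∧
    ∀ p < b, lrk χ F (K ×ˢ C ×ˢ Cube ρ b) t s (K' ×ˢ C ×ˢ Cube ρ b) t' s' p = 0 := by
  -- the convex variables go last
  set G : (Y × (Fin b → ℝ)) × N → ℝ := fun q => F (q.1.1, q.2, q.1.2) with hG
  have hswap : ContinuousOn G ((K ×ˢ Cube ρ b) ×ˢ C) :=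
    hF.cont.comp (Continuous.continuousOn (by fun_prop)) fun q hq => ⟨hq.1.1, hq.2, hq.1.2⟩
  have e1 : ∀ p, lrk χ F (K ×ˢ C ×ˢ Cube ρ b) t s (K' ×ˢ C ×ˢ Cube ρ b) t' s' p ≤
      lrk χ G ((K ×ˢ Cube ρ b) ×ˢ C) t s ((K' ×ˢ Cube ρ b) ×ˢ C) t' s' p := by
    intro p
    refine lrk_le_of_equiv (ψ := fun q : (Y × (Fin b → ℝ)) × N => (q.1.1, q.2, q.1.2))
      (φ := fun x : Y × N × (Fin b → ℝ) => ((x.1, x.2.2), x.2.1))
      ((cK.prod (isCompact_cube ρ b)).prod cC) (cK'.prod (cC.prod (isCompact_cube ρ b)))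
      (Continuous.continuousOn (by fun_prop)) (Continuous.continuousOn (by fun_prop))
      ?_ ?_ ?_ (fun _ _ => rfl) hst hst' htt hss p
    · exact fun q hq => ⟨⟨hq.1.1, hq.2, hq.1.2⟩, le_rfl⟩
    · exact fun x hx => ⟨⟨⟨hx.1, hx.2.2⟩, hx.2.1⟩, le_rfl⟩
    · exact fun x hx => ⟨hKK hx.1, hx.2⟩
  -- the minimiser
  obtain ⟨m, hm1, hm2, hm3⟩ := exists_argmin
    (F := fun (x : Y × (Fin b → ℝ)) (z : N) => F (x.1, z, x.2)) (S := K ×ˢ Cube ρ b) cC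
    ⟨0, h0⟩ hswap (fun x hx z hz z' hz' h h' =>
      (hF.conv x.1 hx.1 x.2 hx.2).eq_of_isMinOn (fun w hw => h w hw) (fun w hw => h' w hw) hz hz')
  have e2 : ∀ p, lrk χ G ((K ×ˢ Cube ρ b) ×ˢ C) t s ((K' ×ˢ Cube ρ b) ×ˢ C) t' s' p ≤
      lrk χ (fun x : Y × (Fin b → ℝ) => F (x.1, m x, x.2)) (K ×ˢ Cube ρ b) t s
        (K' ×ˢ Cube ρ b) t' s' p := fun p =>
    lrk_elim_min (F := G) (m := m) (cK.prod (isCompact_cube ρ b)) (cK'.prod (isCompact_cube ρ b))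
      (prod_mono hKK le_rfl) cC
      (fun x hx => (hF.conv x.1 (hKK hx.1) x.2 hx.2).convexOn) (fun x _ => hm1 x) hm3
      (fun x hx z hz => hm2 x hx z hz) hst hst' htt hss p
  have hm0 : ∀ y ∈ K, F (y, m (y, 0), 0) = F (y, 0, 0) := fun y hy =>
    le_antisymm (hm2 (y, 0) ⟨hy, zero_mem_cube hρ b⟩ 0 h0) (hF.ge y hy _ (hm1 _))
  have hC : ConcBox K δ ρ s (fun x : Y × (Fin b → ℝ) => F (x.1, m x, x.2)) := by
    refine ⟨?_, ?_, ?_, ?_⟩
    · have : ContinuousOn (fun x : Y × (Fin b → ℝ) => (x, m x)) (K ×ˢ Cube ρ b) :=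
        continuousOn_id.prodMk hm3
      exact hswap.comp this fun x hx => ⟨hx, hm1 x⟩
    · intro y hy
      refine ⟨convex_cube _ _, fun z hz z' hz' a c ha hc hac => ?_⟩
      have hzz := convex_cube ρ b hz hz' ha hc hac
      have h1 := (hF.conc y hy _ (hm1 (y, a • z + c • z'))).2 hz hz' ha hc hac
      have h2 := mul_le_mul_of_nonneg_left
        (hm2 (y, z) ⟨hy, hz⟩ _ (hm1 (y, a • z + c • z'))) ha
      have h3 := mul_le_mul_of_nonneg_left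
        (hm2 (y, z') ⟨hy, hz'⟩ _ (hm1 (y, a • z + c • z'))) hc
      simp only [smul_eq_mul] at h1 h2 h3 ⊢
      linarith
    · intro y hy w hw
      have h1 := hm2 (y, w) ⟨hy, hw⟩ 0 h0
      have h2 := hF.le y hy w hw
      simp only [hm0 y hy]
      exact h1.trans h2
    · intro y hy
      simp only [hm0 y hy]
      exact hF.low y hy
  obtain ⟨c1, c2⟩ := lrk_elim_concave (χ := χ) cK cK' hKK hδ hρ hst hst' htt hss b _ hC
  refine ⟨fun p => ?_, fun p hp => ?_⟩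
  · refine ((e1 _).trans (e2 _)).trans ((c1 p).trans (le_of_eq ?_))
    exact lrk_congr hm0 (fun y hy => hm0 y (hKK hy)) t s t' s' p
  · exact le_antisymm (((e1 p).trans (e2 p)).trans (c2 p hp).le) zero_le

end box

end Vale.Agent.P216.G447
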