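import Vale.Agent.P216.GM.LR
import Vale.Agent.P216.GM.BoxRank
import Vale.Agent.P216.H391.BoxData

/-! **GM2**: elimination of the transversal directions. `F` is `C²` near `0` in `Y × Z`, the
differential in the direction of `Z` vanishes along `Y`, the second differential in the direction
of `Z` is nondegenerate at `0`. The local rank of `F` at `0` is at most the local rank of `F|Y`, up
to a shift of the degrees. -/

open Set Topology Metric

namespace Vale.Agent.P216.G447

open Vale.Agent.P265.AS Vale.Agent.P216.H41 Vale.Agent.P216.GM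

variable {Y Z : Type} [NormedAddCommGroup Y] [NormedSpace ℝ Y] [FiniteDimensional ℝ Y]
  [NormedAddCommGroup Z] [NormedSpace ℝ Z] [FiniteDimensional ℝ Z]

/-- **GM2.** -/
theorem gm2 (F : Y × Z → ℝ) (hF : ContDiffAt ℝ 2 F 0)
    (h0 : ∀ᶠ y in 𝓝 (0 : Y), ∀ z : Z, fderiv ℝ F (y, 0) (0, z) = 0)
    (hnd : ∀ z : Z, (∀ w : Z, fderiv ℝ (fderiv ℝ F) 0 (0, z) (0, w) = 0) → z = 0)
    {D : ℕ → ℕ} (h : LR (fun s => {y : Y | F (y, 0) ≤ s}) (F 0) {0} D) :
    ∃ l : ℕ, LR (fun s => {p : Y × Z | F p ≤ s}) (F 0) {0}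
      (fun q => if q < l then 0 else D (q - l)) := by
  obtain ⟨p, b, T, δ, C, r₀, hδ, -, hr₀, hsm, -, hconv, hconc, hge, hle, -⟩ :=
    H391.exists_box_data F hF h0 hnd
  have : ProperSpace Y := FiniteDimensional.proper ℝ Y
  have : ProperSpace Z := FiniteDimensional.proper ℝ Z
  refine ⟨b, fun r hr => ?_⟩
  -- the size of the transversal box
  obtain ⟨ρ, hρ, hρr, hTρ⟩ : ∃ ρ > 0, ρ ≤ r₀ ∧ ∀ u : (Fin p → ℝ) × (Fin b → ℝ), ‖u‖ ≤ ρ →
      ‖T.symm u‖ ≤ r := by
    have hc : ContinuousAt T.symm 0 := T.symm.continuous.continuousAt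
    rw [Metric.continuousAt_iff] at hc
    obtain ⟨η, hη, h1⟩ := hc r hr
    refine ⟨min r₀ (η / 2), lt_min hr₀ (by positivity), min_le_left _ _, fun u hu => ?_⟩
    have h2 := h1 (x := u) (by
      rw [dist_zero_right]
      exact (hu.trans (min_le_right _ _)).trans_lt (by linarith))
    rw [map_zero, dist_zero_right] at h2
    exact h2.le
  -- the size of the box in `Y`
  obtain ⟨κ, hκ, hκr, hκ₀, hκF⟩ : ∃ κ > 0, κ ≤ r ∧ κ ≤ r₀ ∧ ∀ y : Y, ‖y‖ ≤ κ →
      F (y, 0) ≤ F 0 + δ * ρ ^ 2 / 2 := by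
    have hc : ContinuousAt (fun y : Y => F (y, 0)) 0 := by
      have h1 : ContinuousAt F ((fun y : Y => (y, (0 : Z))) 0) := hF.continuousAt
      exact ContinuousAt.comp (f := fun y : Y => (y, (0 : Z))) h1 (by fun_prop)
    have hpos : 0 < δ * ρ ^ 2 / 2 := by positivity
    rw [Metric.continuousAt_iff] at hc
    obtain ⟨η, hη, h1⟩ := hc _ hpos
    refine ⟨min (min r r₀) (η / 2), lt_min (lt_min hr hr₀) (by positivity),
      (min_le_left _ _).trans (min_le_left _ _), (min_le_left _ _).trans (min_le_right _ _),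
      fun y hy => ?_⟩
    have h2 := h1 (x := y) (by
      rw [dist_zero_right]
      exact (hy.trans (min_le_right _ _)).trans_lt (by linarith))
    rw [Real.dist_eq] at h2
    have h3 := (abs_lt.1 h2).2
    have h4 : F ((0 : Y), (0 : Z)) = F 0 := rfl
    rw [h4] at h3
    linarith
  obtain ⟨κ', hκ', hκκ, e₁, he₁, hD⟩ := h.exists_le hκ hκ
  -- the target radius
  obtain ⟨r', hr', hr'r, hr'κ, hTr'⟩ : ∃ r' > 0, r' ≤ r ∧ r' ≤ κ' ∧ ∀ z : Z, ‖z‖ ≤ r' →
      ‖T z‖ ≤ ρ := by
    have hc : ContinuousAt T 0 := T.continuous.continuousAt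
    rw [Metric.continuousAt_iff] at hc
    obtain ⟨η, hη, h1⟩ := hc ρ hρ
    refine ⟨min (min r κ') (η / 2), lt_min (lt_min hr hκ') (by positivity),
      (min_le_left _ _).trans (min_le_left _ _), (min_le_left _ _).trans (min_le_right _ _),
      fun z hz => ?_⟩
    have h2 := h1 (x := z) (by
      rw [dist_zero_right]
      exact (hz.trans (min_le_right _ _)).trans_lt (by linarith))
    rw [map_zero, dist_zero_right] at h2
    exact h2.le
  have hpos : 0 < δ * ρ ^ 2 / 2 := by positivity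
  refine ⟨r', hr', min e₁ (δ * ρ ^ 2 / 2), lt_min he₁ hpos, fun s t hs hsa hat ht k _ q => ?_⟩
  have hs1 : F 0 - e₁ < s := lt_of_le_of_lt (by linarith [min_le_left e₁ (δ * ρ ^ 2 / 2)]) hs
  have hs2 : F 0 - δ * ρ ^ 2 / 2 < s :=
    lt_of_le_of_lt (by linarith [min_le_right e₁ (δ * ρ ^ 2 / 2)]) hs
  have ht1 : t < F 0 + e₁ := lt_of_lt_of_le ht (by linarith [min_le_left e₁ (δ * ρ ^ 2 / 2)])
  have hst : s ≤ t := (hsa.trans hat).le
  -- the saddle box
  set G : Y × (Fin p → ℝ) × (Fin b → ℝ) → ℝ := fun u => F (u.1, T.symm u.2) with hG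
  have hG0 : ∀ y, G (y, 0, 0) = F (y, 0) := fun y => by
    have : T.symm ((0 : Fin p → ℝ), (0 : Fin b → ℝ)) = 0 := T.symm.map_zero
    simp only [hG, this]
  have hcube : ∀ {w : Fin b → ℝ}, w ∈ Cube ρ b → ‖w‖ ≤ r₀ := fun {w} hw => by
    rw [cube_eq_closedBall hρ.le, mem_closedBall_zero_iff] at hw
    exact hw.trans hρr
  have hball : ∀ {x : Fin p → ℝ}, x ∈ closedBall (0 : Fin p → ℝ) ρ → ‖x‖ ≤ r₀ := fun {x} hx =>
    (mem_closedBall_zero_iff.1 hx).trans hρr
  have hKn : ∀ {y : Y}, y ∈ closedBall (0 : Y) κ → ‖y‖ ≤ r₀ := fun {y} hy =>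
    (mem_closedBall_zero_iff.1 hy).trans hκ₀
  have hcubes : Cube ρ b ⊆ closedBall (0 : Fin b → ℝ) r₀ := fun w hw =>
    mem_closedBall_zero_iff.2 (hcube hw)
  have hbox : SaddleBox (closedBall (0 : Y) κ) (closedBall (0 : Fin p → ℝ) ρ) δ ρ s G := by
    refine ⟨fun u hu => ?_, fun y hy w hw => ?_, fun y hy x hx => ?_, fun y hy x hx => ?_,
      fun y hy w hw => ?_, fun y hy => ?_⟩
    · have h1 : ContinuousAt F (u.1, T.symm u.2) :=
        (hsm u.1 u.2.1 u.2.2 (hKn hu.1) (hball hu.2.1) (hcube hu.2.2)).continuousAt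
      have h2 : ContinuousAt G u :=
        ContinuousAt.comp (f := fun u : Y × (Fin p → ℝ) × (Fin b → ℝ) => (u.1, T.symm u.2)) h1
          (Continuous.continuousAt
            (continuous_fst.prodMk (T.symm.continuous.comp continuous_snd)))
      exact h2.continuousWithinAt
    · exact (hconv y w (hKn hy) (hcube hw)).subset (closedBall_subset_closedBall hρr)
        (convex_closedBall _ _)
    · exact (hconc y x (hKn hy) (hball hx)).subset hcubes (convex_cube ρ b)
    · rw [hG0]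
      have h1 := hge y x (hKn hy) (hball hx)
      have h2 : 0 ≤ δ * H391.sq x := mul_nonneg hδ.le (H391.sq_nonneg' x)
      change F (y, 0) ≤ F (y, T.symm (x, 0))
      linarith
    · rw [hG0]
      exact hle y w (hKn hy) (hcube hw)
    · rw [hG0]
      have h1 := hκF y (mem_closedBall_zero_iff.1 hy)
      linarith
  have hK' : closedBall (0 : Y) κ' ⊆ closedBall (0 : Y) κ := closedBall_subset_closedBall hκκ
  obtain ⟨c1, c2⟩ := lrk_box (χ := (1 : k)) (K' := closedBall (0 : Y) κ') (t := t) (s := s)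
    (t' := t) (s' := s) (isCompact_closedBall (0 : Y) κ)
    (isCompact_closedBall (0 : Y) κ') hK' (isCompact_closedBall (0 : Fin p → ℝ) ρ)
    (mem_closedBall_self hρ.le) hδ hρ.le hbox hst hst le_rfl le_rfl
  -- transport to `Y × Z`
  have key : rk id (1 : k) (nb {(0 : Y × Z)} r ∩ {p | F p ≤ t}) (nb {(0 : Y × Z)} r ∩ {p | F p ≤ s})
      (nb {(0 : Y × Z)} r' ∩ {p | F p ≤ t}) (nb {(0 : Y × Z)} r' ∩ {p | F p ≤ s}) q ≤
      lrk (1 : k) G (closedBall (0 : Y) κ ×ˢ closedBall (0 : Fin p → ℝ) ρ ×ˢ Cube ρ b) t s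
        (closedBall (0 : Y) κ' ×ˢ closedBall (0 : Fin p → ℝ) ρ ×ˢ Cube ρ b) t s q := by
    refine lrk_le_of_equiv (F := F) (S := nb {(0 : Y × Z)} r) (T := nb {(0 : Y × Z)} r')
      (ψ := fun u : Y × (Fin p → ℝ) × (Fin b → ℝ) => (u.1, T.symm u.2))
      (φ := fun v : Y × Z => (v.1, T v.2))
      ((isCompact_closedBall _ _).prod ((isCompact_closedBall _ _).prod (isCompact_cube ρ b)))
      (by rw [nb_singleton]; exact isCompact_closedBall _ _)
      (continuous_fst.prodMk (T.symm.continuous.comp continuous_snd)).continuousOn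
      (continuous_fst.prodMk (T.continuous.comp continuous_snd)).continuousOn
      ?_ ?_ ?_ ?_ hst hst le_rfl le_rfl q
    · intro u hu
      refine ⟨?_, le_rfl⟩
      rw [nb_singleton, mem_closedBall_zero_iff, Prod.norm_def, max_le_iff]
      refine ⟨(mem_closedBall_zero_iff.1 hu.1).trans hκr, hTρ _ ?_⟩
      rw [Prod.norm_def, max_le_iff]
      refine ⟨mem_closedBall_zero_iff.1 hu.2.1, ?_⟩
      have h1 := hu.2.2
      rw [cube_eq_closedBall hρ.le, mem_closedBall_zero_iff] at h1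
      exact h1
    · intro v hv
      rw [nb_singleton, mem_closedBall_zero_iff, Prod.norm_def, max_le_iff] at hv
      have h1 := hTr' v.2 hv.2
      rw [Prod.norm_def, max_le_iff] at h1
      refine ⟨⟨mem_closedBall_zero_iff.2 (hv.1.trans hr'κ), mem_closedBall_zero_iff.2 h1.1, ?_⟩, ?_⟩
      · rw [cube_eq_closedBall hρ.le, mem_closedBall_zero_iff]
        exact h1.2
      · simp only [hG, ContinuousLinearEquiv.symm_apply_apply]
        exact le_rfl
    · exact nb_mono le_rfl hr'r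
    · intro v _
      simp only [ContinuousLinearEquiv.symm_apply_apply]
  refine key.trans ?_
  beta_reduce
  by_cases hq : q < b
  · rw [c2 q hq, if_pos hq]
    simp
  · have hq' : q - b + b = q := Nat.sub_add_cancel (not_lt.1 hq)
    have h1 := c1 (q - b)
    rw [hq'] at h1
    rw [if_neg hq]
    refine h1.trans ?_
    have h2 := hD s t hs1 hsa hat ht1 k (q - b) κ le_rfl
    rw [lrk_congr (fun y _ => hG0 y) (fun y _ => hG0 y)]
    rw [nb_singleton, nb_singleton] at h2
    exact h2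

end Vale.Agent.P216.G447
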