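import Vale.Agent.P216.GM.Spec
import Vale.Agent.P216.LS.Lift

/-!
# The twisted local rank in the double cover (P216, block LOCAL, `TW`)
-/

open Set Filter Topology

namespace Vale.Agent.P216.GM

open Vale.Agent.P265.AS Vale.Agent.P216.H41 L250 LS H288 H494 H844
open scoped ComplexConjugate

variable {M : Type} [MetricSpace M]

section Sqrt

variable (H : Hol M) (g₀ : LM M)

/-- A square root of the holonomy of `g₀`. -/
noncomputable def z0 : ℂ := csq (H.hol g₀)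

/-- The square root of the holonomy of `g` near `z0`. -/
noncomputable def zz (g : LM M) : ℂ := z0 H g₀ * csq (H.hol g * conj (H.hol g₀))

theorem z0_sq : z0 H g₀ ^ 2 = H.hol g₀ := csq_sq (H.hol_ne_zero _)

theorem norm_z0 : ‖z0 H g₀‖ = 1 := by
  have h1 : ‖z0 H g₀‖ ^ 2 = 1 := by rw [← norm_pow, z0_sq, H.norm_hol]
  exact (pow_eq_one_iff_of_nonneg (norm_nonneg _) two_ne_zero).1 h1

theorem zz_sq (g : LM M) : zz H g₀ g ^ 2 = H.hol g := by
  have h1 : H.hol g * conj (H.hol g₀) ≠ 0 :=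
    mul_ne_zero (H.hol_ne_zero _) (by rw [H.conj_hol]; exact inv_ne_zero (H.hol_ne_zero _))
  rw [zz, mul_pow, csq_sq h1, z0_sq]
  calc H.hol g₀ * (H.hol g * conj (H.hol g₀)) = H.hol g * (H.hol g₀ * conj (H.hol g₀)) := by ring
    _ = _ := by rw [H.mul_conj_hol, mul_one]

theorem norm_zz_sub (g : LM M) :
    ‖zz H g₀ g - z0 H g₀‖ = ‖csq (H.hol g * conj (H.hol g₀)) - 1‖ := by
  have : zz H g₀ g - z0 H g₀ = z0 H g₀ * (csq (H.hol g * conj (H.hol g₀)) - 1) := by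
    rw [zz]; ring
  rw [this, norm_mul, norm_z0, one_mul]

theorem norm_ratio (g : LM M) :
    ‖H.hol g * conj (H.hol g₀) - 1‖ = ‖H.hol g - H.hol g₀‖ := by
  have : H.hol g * conj (H.hol g₀) - 1 = (H.hol g - H.hol g₀) * conj (H.hol g₀) := by
    rw [sub_mul, H.mul_conj_hol]
  rw [this, norm_mul, RCLike.norm_conj, H.norm_hol, mul_one]

theorem hol_orb {g : LM M} (hg : g ∈ orb g₀) : H.hol g = H.hol g₀ := by
  obtain ⟨s, rfl⟩ := hg
  exact H.hol_rot _ _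

/-- Two square roots near the same unit number are equal. -/
theorem eq_of_near {z w u : ℂ} (hu : ‖u‖ = 1) (h : z ^ 2 = w ^ 2) (hz : ‖z - u‖ ≤ 1 / 4)
    (hw : ‖w - u‖ ≤ 1 / 4) : z = w := by
  rcases sq_eq_sq_iff_eq_or_eq_neg.1 h with h1 | h1
  · exact h1
  · exfalso
    have h2 : ‖(2 : ℂ) * u‖ = 2 := by rw [norm_mul, hu]; norm_num
    have h3 : (2 : ℂ) * u = -(z - u) - (w - u) := by rw [h1]; ring
    have h4 := norm_sub_le (-(z - u)) (w - u)
    rw [← h3, h2, norm_neg] at h4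
    linarith

end Sqrt

section

variable (H : Hol M) {g₀ : LM M} {a : ℝ}

theorem mem_nb_cov {q : LM M × ℂ} {r : ℝ} (h : q ∈ nb (cov H (orb g₀)) r) :
    q.1 ∈ nb (orb g₀) r ∧ (‖q.2 - z0 H g₀‖ ≤ r ∨ ‖q.2 + z0 H g₀‖ ≤ r) := by
  obtain ⟨y, hy, hd⟩ := h
  rw [Prod.dist_eq] at hd
  refine ⟨⟨y.1, hy.1, (le_max_left _ _).trans hd⟩, ?_⟩
  have h1 : y.2 ^ 2 = z0 H g₀ ^ 2 := by rw [hy.2, z0_sq, hol_orb H g₀ hy.1]
  have h2 : dist q.2 y.2 ≤ r := (le_max_right _ _).trans hd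
  rw [dist_eq_norm] at h2
  rcases sq_eq_sq_iff_eq_or_eq_neg.1 h1 with h3 | h3
  · left; rwa [h3] at h2
  · right; rwa [h3, sub_neg_eq_add] at h2

theorem inv_nb_cov {r s : ℝ} : Inv deckC (nb (cov H (orb g₀)) r ∩ XT H s) := by
  have key : ∀ q : LM M × ℂ, q ∈ nb (cov H (orb g₀)) r ∩ XT H s →
      deckC q ∈ nb (cov H (orb g₀)) r ∩ XT H s := by
    rintro q ⟨⟨y, hy, hd⟩, hq⟩
    refine ⟨⟨deckC y, deck_mem_cov hy, ?_⟩, deckC_mem hq⟩
    rwa [isometry_deckC.dist_eq]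
  intro q
  refine ⟨fun h => ?_, key q⟩
  have := key _ h
  rwa [deckC_deckC] at this

theorem mk_mem {g : LM M} {r r₁ s : ℝ} (hr : r₁ ≤ r) (hg : g ∈ nb (orb g₀) r₁ ∩ XL M s)
    (hz : ‖zz H g₀ g - z0 H g₀‖ ≤ r) :
    ((g, zz H g₀ g) : LM M × ℂ) ∈ nb (cov H (orb g₀)) r ∩ XT H s := by
  obtain ⟨⟨y, hy, hd⟩, hg⟩ := hg
  refine ⟨⟨(y, z0 H g₀), ⟨hy, by rw [z0_sq, hol_orb H g₀ hy]⟩, ?_⟩, hg, zz_sq H g₀ g⟩
  rw [Prod.dist_eq]
  exact max_le (hd.trans hr) (by rw [dist_eq_norm]; exact hz)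

/-- **TW.** -/
theorem tw [CompactSpace M] : TW M := by
  classical
  intro H G e a he ha g₀ hg₀ D hLR r hr
  have hg₀E : g₀ ∈ XE M a := KK_subset_XE he ha.le hg₀
  have ha1 : (0 : ℝ) ≤ a + 1 := by linarith
  have hcomp : IsCompact (XE M (a + 1)) := isCompact_XE ha1
  -- the square root is close to `1` near `1`
  have hcs : ∀ η > 0, ∃ η' > 0, ∀ u : ℂ, ‖u - 1‖ < η' → ‖csq u - 1‖ < η := by
    intro η hη
    have h1 : ContinuousAt csq 1 := by
      refine (continuousOn_csq 1 ?_).continuousAt (Complex.isOpen_slitPlane.mem_nhds ?_) <;>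
        exact Complex.one_mem_slitPlane
    rw [Metric.continuousAt_iff] at h1
    obtain ⟨η', hη', h2⟩ := h1 η hη
    refine ⟨η', hη', fun u hu => ?_⟩
    have := h2 (x := u) (by rwa [dist_eq_norm])
    rwa [csq_one, dist_eq_norm] at this
  obtain ⟨η', hη', hcs'⟩ := hcs (min r (1 / 4)) (lt_min hr (by norm_num))
  have huc := hcomp.uniformContinuousOn_of_continuous (H.continuousOn_hol (a + 1))
  rw [Metric.uniformContinuousOn_iff] at huc
  obtain ⟨δ, hδ, hhol⟩ := huc (min η' (1 / 2)) (lt_min hη' (by norm_num))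
  set r₁ : ℝ := min (δ / 2) r with hr₁
  have hr₁0 : 0 < r₁ := lt_min (by positivity) hr
  have hnear : ∀ g ∈ nb (orb g₀) r₁, g ∈ XE M (a + 1) →
      ‖H.hol g * conj (H.hol g₀) - 1‖ < min η' (1 / 2) := by
    rintro g ⟨y, hy, hd⟩ hg
    have hyE : y ∈ XE M (a + 1) := XE_mono ha.le (by linarith)
      (KK_subset_XE he ha.le (orb_subset_KK hg₀ hy))
    have h1 := hhol g hg y hyE (lt_of_le_of_lt (hd.trans (min_le_left _ _)) (by linarith))
    rw [norm_ratio, ← dist_eq_norm, ← hol_orb H g₀ hy]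
    exact h1
  have hzz : ∀ g ∈ nb (orb g₀) r₁, g ∈ XE M (a + 1) →
      ‖zz H g₀ g - z0 H g₀‖ < min r (1 / 4) := by
    intro g hg hgE
    rw [norm_zz_sub]
    exact hcs' _ ((hnear g hg hgE).trans_le (min_le_left _ _))
  -- uniform continuity of `zz`
  have hzuc : ∀ ε > 0, ∃ δ' > 0, ∀ x ∈ nb (orb g₀) r₁ ∩ XE M (a + 1),
      ∀ y ∈ nb (orb g₀) r₁ ∩ XE M (a + 1), dist x y < δ' → dist (zz H g₀ x) (zz H g₀ y) < ε := by
    have hc1 : ContinuousOn (fun g : LM M => H.hol g * conj (H.hol g₀)) (XE M (a + 1)) :=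
      (H.continuousOn_hol (a + 1)).mul continuousOn_const
    have hB : IsCompact (XE M (a + 1) ∩
        (fun g : LM M => H.hol g * conj (H.hol g₀)) ⁻¹' Metric.closedBall 1 (1 / 2)) := by
      obtain ⟨u, hu, h2⟩ := continuousOn_iff_isClosed.1 hc1 _
        (Metric.isClosed_closedBall (x := (1 : ℂ)) (ε := 1 / 2))
      rw [inter_comm, h2, inter_comm]
      exact hcomp.inter_right hu
    have hc2 : ContinuousOn (zz H g₀) (XE M (a + 1) ∩
        (fun g : LM M => H.hol g * conj (H.hol g₀)) ⁻¹' Metric.closedBall 1 (1 / 2)) := by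
      refine continuousOn_const.mul (continuousOn_csq.comp (hc1.mono inter_subset_left) ?_)
      intro g hg
      refine mem_slitPlane_of_norm_sub_one ?_
      have := hg.2
      rw [mem_preimage, Metric.mem_closedBall, dist_eq_norm] at this
      linarith
    intro ε hε
    obtain ⟨δ', hδ', h3⟩ := uc_of_compact' hB hc2 ε hε
    have hsub : ∀ x ∈ nb (orb g₀) r₁ ∩ XE M (a + 1), x ∈ XE M (a + 1) ∩
        (fun g : LM M => H.hol g * conj (H.hol g₀)) ⁻¹' Metric.closedBall 1 (1 / 2) := by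
      intro x hx
      refine ⟨hx.2, ?_⟩
      rw [mem_preimage, Metric.mem_closedBall, dist_eq_norm]
      exact (hnear x hx.1 hx.2).le.trans (min_le_right _ _)
    exact ⟨δ', hδ', fun x hx y hy => h3 x (hsub x hx) y (hsub y hy)⟩
  obtain ⟨r₂, hr₂, e₀, he₀, h1⟩ := hLR r₁ hr₁0
  set r' : ℝ := min r₂ (min r₁ (1 / 4)) with hr'
  have hr'0 : 0 < r' := lt_min hr₂ (lt_min hr₁0 (by norm_num))
  have hr'1 : r' ≤ r₁ := (min_le_right _ _).trans (min_le_left _ _)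
  have hr'4 : r' ≤ 1 / 4 := (min_le_right _ _).trans (min_le_right _ _)
  refine ⟨r', hr'0, min e₀ 1, lt_min he₀ one_pos, fun s t hs hsa hat ht k _ q => ?_⟩
  have ht1 : t < a + 1 := ht.trans_le (by linarith [min_le_right e₀ 1])
  have hXt : XL M t ⊆ XE M (a + 1) :=
    XE_mono (le_max_right _ _) (max_le ht1.le (by linarith))
  have hst : XL M s ⊆ XL M t := XL_mono (hsa.trans hat).le
  have hstT : XT H s ⊆ XT H t := XT_mono (hsa.trans hat).le
  have hfst : ∀ {u : ℝ} {q : LM M × ℂ}, q ∈ XT H u → q.1 ∈ XL M u := fun h => h.1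
  set σ : LM M × ℂ → ℕ := fun q => if ‖q.2 - z0 H g₀‖ < 1 then 0 else 1 with hσ
  have h2z : ‖(2 : ℂ) * z0 H g₀‖ = 2 := by rw [norm_mul, norm_z0]; norm_num
  have hσ0 : ∀ {q : LM M × ℂ}, ‖q.2 - z0 H g₀‖ ≤ r' → σ q = 0 := by
    intro q hq
    simp only [hσ]
    rw [if_pos]
    linarith
  have hσ1 : ∀ {q : LM M × ℂ}, ‖q.2 + z0 H g₀‖ ≤ r' → σ q = 1 := by
    intro q hq
    simp only [hσ]
    rw [if_neg]
    intro hcon
    have h3 : (2 : ℂ) * z0 H g₀ = (q.2 + z0 H g₀) - (q.2 - z0 H g₀) := by ring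
    have h4 := norm_sub_le (q.2 + z0 H g₀) (q.2 - z0 H g₀)
    rw [← h3, h2z] at h4
    linarith
  refine le_trans (rk_le_sheet (n := 2) (χ := (-1 : k)) (by norm_num)
    (X' := nb (cov H (orb g₀)) r ∩ XT H t) (A' := nb (cov H (orb g₀)) r ∩ XT H s)
    (X := nb (cov H (orb g₀)) r' ∩ XT H t) (A := nb (cov H (orb g₀)) r' ∩ XT H s)
    (C := nb (orb g₀) r₁ ∩ XL M t) (C' := nb (orb g₀) r₁ ∩ XL M s)
    (D := nb (orb g₀) r' ∩ XL M t) (D' := nb (orb g₀) r' ∩ XL M s)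
    (i := fun g => (g, zz H g₀ g)) (pr := Prod.fst) (σ := σ)
    (inter_subset_inter_right _ hstT) (inv_nb_cov H) ?_ ?_ ?_ ?_ ?_ ?_ ?_
    (inter_subset_inter_right _ hst) q) (le_trans (rk_mono le_rfl le_rfl ?_ ?_ q)
      (h1 s t ((by linarith [min_le_left e₀ 1] : a - e₀ ≤ a - min e₀ 1).trans_lt hs) hsa hat
        (ht.trans_le (by linarith [min_le_left e₀ 1])) k q))
  · refine ⟨fun g hg => ?_, fun g hg => ?_, fun _ _ => rfl, fun ε hε => ?_⟩
    · exact mk_mem H (min_le_right _ _) hg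
        (((hzz g hg.1 (hXt hg.2)).le).trans (min_le_left _ _))
    · exact mk_mem H (min_le_right _ _) hg
        (((hzz g hg.1 (hXt (hst hg.2))).le).trans (min_le_left _ _))
    · obtain ⟨δ', hδ', h3⟩ := hzuc ε hε
      refine ⟨min δ' ε, lt_min hδ' hε, fun x hx y hy hxy => ?_⟩
      rw [Prod.dist_eq]
      exact max_lt (hxy.trans_le (min_le_right _ _))
        (h3 x ⟨hx.1, hXt hx.2⟩ y ⟨hy.1, hXt hy.2⟩ (hxy.trans_le (min_le_left _ _)))
  · refine ⟨fun q hq => ⟨(mem_nb_cov H hq.1).1, hfst hq.2⟩,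
      fun q hq => ⟨(mem_nb_cov H hq.1).1, hfst hq.2⟩, fun _ _ => rfl, fun ε hε => ⟨ε, hε, ?_⟩⟩
    intro x _ y _ hxy
    rw [Prod.dist_eq] at hxy
    exact (le_max_left _ _).trans_lt hxy
  · exact inter_subset_inter_left _ (nb_mono le_rfl hr'1)
  · intro q hq
    rcases (mem_nb_cov H hq.1).2 with h3 | h3
    · rw [hσ0 h3, if_pos (by norm_num)]
      refine hσ1 ?_
      rw [deckC_snd, ← norm_neg]
      have : -(-q.2 + z0 H g₀) = q.2 - z0 H g₀ := by ring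
      rw [this]; exact h3
    · rw [hσ1 h3, if_neg (by norm_num)]
      refine hσ0 ?_
      rw [deckC_snd, ← norm_neg]
      have : -(-q.2 - z0 H g₀) = q.2 + z0 H g₀ := by ring
      rw [this]; exact h3
  · intro q _
    simp only [hσ]
    split_ifs <;> norm_num
  · refine ⟨1, one_pos, fun x hx y hy hxy => ?_⟩
    rw [Prod.dist_eq] at hxy
    have hxy2 : ‖x.2 - y.2‖ < 1 := by
      rw [← dist_eq_norm]; exact (le_max_right _ _).trans_lt hxy
    rcases (mem_nb_cov H hx.1).2 with h3 | h3 <;> rcases (mem_nb_cov H hy.1).2 with h4 | h4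
    · rw [hσ0 h3, hσ0 h4]
    · exfalso
      have h5 : (2 : ℂ) * z0 H g₀ = (y.2 + z0 H g₀) - (x.2 - z0 H g₀) + (x.2 - y.2) := by ring
      have h6 := norm_add_le ((y.2 + z0 H g₀) - (x.2 - z0 H g₀)) (x.2 - y.2)
      have h7 := norm_sub_le (y.2 + z0 H g₀) (x.2 - z0 H g₀)
      rw [← h5, h2z] at h6
      linarith
    · exfalso
      have h5 : (2 : ℂ) * z0 H g₀ = (x.2 + z0 H g₀) - (y.2 - z0 H g₀) - (x.2 - y.2) := by ring
      have h6 := norm_sub_le ((x.2 + z0 H g₀) - (y.2 - z0 H g₀)) (x.2 - y.2)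
      have h7 := norm_sub_le (x.2 + z0 H g₀) (y.2 - z0 H g₀)
      rw [← h5, h2z] at h6
      linarith
    · rw [hσ1 h3, hσ1 h4]
  · intro q hq
    obtain ⟨h3, h4⟩ := mem_nb_cov H hq.1
    have hqE : q.1 ∈ XE M (a + 1) := hXt (hfst hq.2)
    have h5 := (hzz q.1 (nb_mono le_rfl hr'1 h3) hqE).le.trans (min_le_right _ _)
    have h6 : q.2 ^ 2 = zz H g₀ q.1 ^ 2 := by rw [zz_sq]; exact hq.2.2
    rcases h4 with h4 | h4
    · rw [hσ0 h4]
      exact Prod.ext rfl (eq_of_near (norm_z0 H g₀) h6 (h4.trans hr'4) h5).symm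
    · rw [hσ1 h4]
      refine Prod.ext rfl ?_
      show -zz H g₀ q.1 = q.2
      have h7 : (-q.2) ^ 2 = zz H g₀ q.1 ^ 2 := by rw [neg_sq, h6]
      have h8 : ‖-q.2 - z0 H g₀‖ ≤ 1 / 4 := by
        rw [← norm_neg]
        have : -(-q.2 - z0 H g₀) = q.2 + z0 H g₀ := by ring
        rw [this]; exact h4.trans hr'4
      rw [← eq_of_near (norm_z0 H g₀) h7 h8 h5, neg_neg]
  · exact inter_subset_inter_left _ (nb_mono le_rfl (min_le_left _ _))
  · exact inter_subset_inter_left _ (nb_mono le_rfl (min_le_left _ _))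

end

end Vale.Agent.P216.GM
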