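import Vale.Agent.P216.GM.LR
import Vale.Agent.P216.H41.MV

/-!
# Local ranks along arcs of orbits (P216, block LOCAL, F2)
-/

open Set

namespace Vale.Agent.P216.GM

open Vale.Agent.P265.AS Vale.Agent.P216.H41

section Pseudo

variable {E E' : Type} [PseudoMetricSpace E] [PseudoMetricSpace E']

theorem isClosed_nb {K : Set E} (hK : IsCompact K) {r : ℝ} (hr : 0 ≤ r) : IsClosed (nb K r) := by
  have : nb K r = Metric.cthickening r K := by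
    rw [hK.cthickening_eq_biUnion_closedBall hr]
    ext x
    simp [nb, Metric.mem_closedBall]
  rw [this]
  exact Metric.isClosed_cthickening

namespace LR

variable {X : ℝ → Set E} {X' : ℝ → Set E'} {a : ℝ} {K : Set E} {K' : Set E'} {D D' : ℕ → ℕ}

/-- **Comparison of local ranks**, compact version. -/
theorem of_continuousOn (h : LR X' a K' D) {F : E → E'} {G : E' → E} {H : ℝ → E → E}
    {r₀ e₁ : ℝ} (hr₀ : 0 < r₀) (he₁ : 0 < e₁) (hX : Monotone X) (hX' : Monotone X')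
    (hc : IsCompact (nb K r₀ ∩ X (a + e₁))) (hc' : IsCompact (nb K' r₀ ∩ X' (a + e₁)))
    (hK : K ⊆ X (a + e₁)) (hK' : K' ⊆ X' (a + e₁))
    (hFc : ContinuousOn F (nb K r₀ ∩ X (a + e₁)))
    (hGc : ContinuousOn G (nb K' r₀ ∩ X' (a + e₁)))
    (hHc : ContinuousOn (fun q : ℝ × E => H q.1 q.2) (Icc (0 : ℝ) 1 ×ˢ (nb K r₀ ∩ X (a + e₁))))
    (hFK : MapsTo F K K') (hGK : MapsTo G K' K) (hHK : ∀ u ∈ Icc (0 : ℝ) 1, MapsTo (H u) K K)
    (hF : ∀ s, |s - a| < e₁ → ∀ x ∈ nb K r₀, x ∈ X s → F x ∈ X' s)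
    (hG : ∀ s, |s - a| < e₁ → ∀ x ∈ nb K' r₀, x ∈ X' s → G x ∈ X s)
    (hH : ∀ s, |s - a| < e₁ → ∀ u ∈ Icc (0 : ℝ) 1, ∀ x ∈ nb K r₀, x ∈ X s → H u x ∈ X s)
    (h0 : ∀ x ∈ nb K r₀ ∩ X (a + e₁), H 0 x = x)
    (h1 : ∀ x ∈ nb K r₀ ∩ X (a + e₁), H 1 x = G (F x)) : LR X a K D := by
  have hKn : K ⊆ nb K r₀ ∩ X (a + e₁) := fun x hx => ⟨subset_nb hr₀.le hx, hK hx⟩
  have hKn' : K' ⊆ nb K' r₀ ∩ X' (a + e₁) := fun x hx => ⟨subset_nb hr₀.le hx, hK' hx⟩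
  have uF : ∀ ε > 0, ∃ δ > 0, ∀ x ∈ nb K r₀ ∩ X (a + e₁), ∀ y ∈ nb K r₀ ∩ X (a + e₁),
      dist x y < δ → dist (F x) (F y) < ε := uc_of_compact' hc hFc
  have uG : ∀ ε > 0, ∃ δ > 0, ∀ x ∈ nb K' r₀ ∩ X' (a + e₁), ∀ y ∈ nb K' r₀ ∩ X' (a + e₁),
      dist x y < δ → dist (G x) (G y) < ε := uc_of_compact' hc' hGc
  have uH := uc_of_compact hc hHc
  refine h.of_maps hr₀ he₁ hX hX' hF ?_ uF hG ?_ uG hH ?_ uH h0 h1
  · intro ρ hρ
    obtain ⟨δ, hδ, h2⟩ := uF ρ hρ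
    refine ⟨min (δ / 2) r₀, lt_min (half_pos hδ) hr₀, ?_⟩
    rintro x ⟨y, hy, hxy⟩ hx
    refine ⟨F y, hFK hy, (h2 x ⟨⟨y, hy, hxy.trans (min_le_right _ _)⟩, hx⟩ y (hKn hy) ?_).le⟩
    have := hxy.trans (min_le_left _ _)
    linarith
  · intro ρ hρ
    obtain ⟨δ, hδ, h2⟩ := uG ρ hρ
    refine ⟨min (δ / 2) r₀, lt_min (half_pos hδ) hr₀, ?_⟩
    rintro x ⟨y, hy, hxy⟩ hx
    refine ⟨G y, hGK hy, (h2 x ⟨⟨y, hy, hxy.trans (min_le_right _ _)⟩, hx⟩ y (hKn' hy) ?_).le⟩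
    have := hxy.trans (min_le_left _ _)
    linarith
  · intro ρ hρ
    obtain ⟨δ, hδ, h2⟩ := uH ρ hρ
    refine ⟨min (δ / 2) r₀, lt_min (half_pos hδ) hr₀, ?_⟩
    rintro u hu x ⟨y, hy, hxy⟩ hx
    refine ⟨H u y, hHK u hu hy, (h2 u hu u hu x ⟨⟨y, hy, hxy.trans (min_le_right _ _)⟩, hx⟩ y
      (hKn hy) (by rwa [sub_self, abs_zero]) ?_).le⟩
    have := hxy.trans (min_le_left _ _)
    linarith

end LR

end Pseudo

section Metric

variable {E : Type} [MetricSpace E]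

theorem exists_nb_inter {K L : Set E} (hK : IsCompact K) (hL : IsCompact L) {ρ : ℝ} (hρ : 0 < ρ) :
    ∃ δ > 0, nb K δ ∩ nb L δ ⊆ nb (K ∩ L) ρ := by
  by_contra hcon
  push Not at hcon
  have hx : ∀ n : ℕ, ∃ x y z, y ∈ K ∧ z ∈ L ∧ dist x y ≤ 1 / ((n : ℝ) + 1) ∧
      dist x z ≤ 1 / ((n : ℝ) + 1) ∧ x ∉ nb (K ∩ L) ρ := by
    intro n
    obtain ⟨x, hx, hxn⟩ := not_subset.1 (hcon (1 / ((n : ℝ) + 1)) (by positivity))
    obtain ⟨⟨y, hy, hxy⟩, z, hz, hxz⟩ := hx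
    exact ⟨x, y, z, hy, hz, hxy, hxz, hxn⟩
  choose x y z hy hz hxy hxz hxn using hx
  obtain ⟨w, hw, φ, hφ, hlim⟩ := hK.tendsto_subseq hy
  have hφ0 : Filter.Tendsto (fun n => 1 / ((φ n : ℝ) + 1)) Filter.atTop (nhds 0) :=
    tendsto_one_div_add_atTop_nhds_zero_nat.comp hφ.tendsto_atTop
  have hxlim : Filter.Tendsto (x ∘ φ) Filter.atTop (nhds w) := by
    rw [tendsto_iff_dist_tendsto_zero] at hlim ⊢
    refine squeeze_zero (fun _ => dist_nonneg) (fun n => dist_triangle _ ((y ∘ φ) n) _)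
      (?_ : Filter.Tendsto (fun n => dist ((x ∘ φ) n) ((y ∘ φ) n) + dist ((y ∘ φ) n) w)
        Filter.atTop (nhds 0))
    rw [← add_zero (0 : ℝ)]
    exact (squeeze_zero (fun _ => dist_nonneg) (fun n => hxy (φ n)) hφ0).add hlim
  have hzlim : Filter.Tendsto (z ∘ φ) Filter.atTop (nhds w) := by
    rw [tendsto_iff_dist_tendsto_zero] at hxlim ⊢
    refine squeeze_zero (fun _ => dist_nonneg) (fun n => dist_triangle _ ((x ∘ φ) n) _)
      (?_ : Filter.Tendsto (fun n => dist ((z ∘ φ) n) ((x ∘ φ) n) + dist ((x ∘ φ) n) w)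
        Filter.atTop (nhds 0))
    rw [← add_zero (0 : ℝ)]
    refine (squeeze_zero (fun _ => dist_nonneg) (fun n => ?_) hφ0).add hxlim
    rw [dist_comm]
    exact hxz (φ n)
  have hwL : w ∈ L := hL.isClosed.mem_of_tendsto hzlim (Filter.Eventually.of_forall fun n => hz _)
  rw [tendsto_iff_dist_tendsto_zero] at hxlim
  obtain ⟨n, hn⟩ := ((hxlim.eventually (gt_mem_nhds hρ))).exists
  exact hxn (φ n) ⟨w, ⟨hw, hwL⟩, hn.le⟩

theorem nb_room {K L : Set E} {r : ℝ} {P : Set E} :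
    ∀ x ∈ nb K (r / 2) ∩ P, ∀ y ∈ L, dist x y < r / 2 → y ∈ nb K r := by
  rintro x ⟨⟨z, hz, hxz⟩, -⟩ y _ hxy
  refine ⟨z, hz, ?_⟩
  have := dist_triangle y x z
  rw [dist_comm y x] at this
  linarith

/-- **Mayer-Vietoris for local ranks.** -/
theorem LR.union' {X : ℝ → Set E} {a : ℝ} {K L : Set E} {D₁ D₂ D₃ : ℕ → ℕ} (hX : Monotone X)
    (hK : IsCompact K) (hL : IsCompact L) (h₁ : LR X a K D₁) (h₂ : LR X a L D₂)
    (h₃ : LR X a (K ∩ L) D₃) :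
    LR X a (K ∪ L) fun q => D₁ q + D₂ q + if q = 0 then 0 else D₃ (q - 1) := by
  intro r hr
  obtain ⟨r₁, hr₁, -, e₁, he₁, H₁⟩ := h₁.exists_le hr hr
  obtain ⟨r₂, hr₂, -, e₂, he₂, H₂⟩ := h₂.exists_le hr hr
  set ρ : ℝ := min r₁ r₂ with hρdef
  have hρ : 0 < ρ := lt_min hr₁ hr₂
  obtain ⟨ρ₃, hρ₃, -, e₃, he₃, H₃⟩ := h₃.exists_le hρ one_pos
  obtain ⟨δ, hδ, hδs⟩ := exists_nb_inter hK hL hρ₃
  set r₄ : ℝ := min δ ρ with hr₄def
  have hr₄ : 0 < r₄ := lt_min hδ hρ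
  have h4ρ : r₄ ≤ ρ := min_le_right _ _
  refine ⟨r₄ / 2, half_pos hr₄, min (min e₁ e₂) e₃, lt_min (lt_min he₁ he₂) he₃,
    fun s t hs hs' ht ht' k _ q => ?_⟩
  have hQP : X s ⊆ X t := hX (by linarith)
  have hm₁ : min (min e₁ e₂) e₃ ≤ e₁ := (min_le_left _ _).trans (min_le_left _ _)
  have hm₂ : min (min e₁ e₂) e₃ ≤ e₂ := (min_le_left _ _).trans (min_le_right _ _)
  have hm₃ : min (min e₁ e₂) e₃ ≤ e₃ := min_le_right _ _
  have hg : ∀ Y : Set E, Inv (id : E → E) Y := fun Y => inv_id Y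
  have a1 : ∀ q, rk id (1 : k) (nb K r ∩ X t) (nb K r ∩ X s) (nb K ρ ∩ X t) (nb K ρ ∩ X s) q ≤
      (D₁ q : Cardinal) := fun q =>
    (rk_mono le_rfl le_rfl (inter_subset_inter_left _ (nb_mono le_rfl (min_le_left _ _)))
      (inter_subset_inter_left _ (nb_mono le_rfl (min_le_left _ _))) q).trans
      (H₁ s t (by linarith) hs' ht (by linarith) k q r le_rfl)
  have a2 : ∀ q, rk id (1 : k) (nb L r ∩ X t) (nb L r ∩ X s) (nb L ρ ∩ X t) (nb L ρ ∩ X s) q ≤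
      (D₂ q : Cardinal) := fun q =>
    (rk_mono le_rfl le_rfl (inter_subset_inter_left _ (nb_mono le_rfl (min_le_right _ _)))
      (inter_subset_inter_left _ (nb_mono le_rfl (min_le_right _ _))) q).trans
      (H₂ s t (by linarith) hs' ht (by linarith) k q r le_rfl)
  have hsub : nb K r₄ ∩ nb L r₄ ⊆ nb (K ∩ L) ρ₃ := fun x hx =>
    hδs ⟨nb_mono le_rfl (min_le_left _ _) hx.1, nb_mono le_rfl (min_le_left _ _) hx.2⟩
  have a3 : ∀ q, rk id (1 : k) (nb K ρ ∩ nb L ρ ∩ X t) (nb K ρ ∩ nb L ρ ∩ X s)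
      (nb K r₄ ∩ nb L r₄ ∩ X t) (nb K r₄ ∩ nb L r₄ ∩ X s) q ≤ (D₃ q : Cardinal) := fun q =>
    (rk_mono (inter_subset_inter_left _ nb_inter_subset)
      (inter_subset_inter_left _ nb_inter_subset) (inter_subset_inter_left _ hsub)
      (inter_subset_inter_left _ hsub) q).trans
      (H₃ s t (by linarith) hs' ht (by linarith) k q ρ le_rfl)
  have hA : ∀ x ∈ nb K (r₄ / 2) ∩ X t, ∀ y ∈ (nb K (r₄ / 2) ∪ nb L (r₄ / 2)) ∩ X t,
      dist x y < r₄ / 2 → y ∈ nb K r₄ := nb_room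
  have hB : ∀ x ∈ nb L (r₄ / 2) ∩ X t, ∀ y ∈ (nb K (r₄ / 2) ∪ nb L (r₄ / 2)) ∩ X t,
      dist x y < r₄ / 2 → y ∈ nb L r₄ := nb_room
  have h4K : nb K r₄ ⊆ nb K ρ := nb_mono le_rfl h4ρ
  have h4L : nb L r₄ ⊆ nb L ρ := nb_mono le_rfl h4ρ
  have h2K : nb K (r₄ / 2) ⊆ nb K ρ := nb_mono le_rfl (by linarith)
  have h2L : nb L (r₄ / 2) ⊆ nb L ρ := nb_mono le_rfl (by linarith)
  rw [nb_union, nb_union]
  cases q with
  | zero =>
    refine (rk_mv_zero (A₁ := nb K r₄) (B₁ := nb L r₄) (A₂ := nb K ρ) (B₂ := nb L ρ)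
      (δ := r₄ / 2) hQP (half_pos hr₄) hA hB h4K h4L h2K h2L (1 : k)).trans ?_
    refine (add_le_add (a1 0) (a2 0)).trans ?_
    simp
  | succ q =>
    refine (rk_mv (A₁ := nb K r₄) (B₁ := nb L r₄) (A₂ := nb K ρ) (B₂ := nb L ρ)
      (δ := r₄ / 2) hQP (half_pos hr₄) (hg _) (hg _) (hg _) (hg _) (hg _) (hg _) hA hB
      h4K h4L h2K h2L (1 : k) q).trans ?_
    refine (add_le_add (add_le_add (a1 _) (a2 _)) (a3 _)).trans ?_
    simp

/-- **Mayer-Vietoris for local ranks**, weaker form in degree zero. -/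
theorem LR.union {X : ℝ → Set E} {a : ℝ} {K L : Set E} {D₁ D₂ D₃ : ℕ → ℕ} (hX : Monotone X)
    (hK : IsCompact K) (hL : IsCompact L) (h₁ : LR X a K D₁) (h₂ : LR X a L D₂)
    (h₃ : LR X a (K ∩ L) D₃) : LR X a (K ∪ L) fun q => D₁ q + D₂ q + D₃ (q - 1) := by
  refine (LR.union' hX hK hL h₁ h₂ h₃).mono fun q => ?_
  split_ifs
  · exact Nat.le_add_right _ _
  · exact le_rfl

/-- Disjoint compact sets. -/
theorem LR.union_disjoint {X : ℝ → Set E} {a : ℝ} {K L : Set E} {D₁ D₂ : ℕ → ℕ}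
    (hX : Monotone X) (hK : IsCompact K) (hL : IsCompact L) (hd : Disjoint K L)
    (h₁ : LR X a K D₁) (h₂ : LR X a L D₂) : LR X a (K ∪ L) fun q => D₁ q + D₂ q :=
  LR.union hX hK hL h₁ h₂ (by rw [hd.inter_eq]; exact LR.empty)

/-- Finite disjoint unions. -/
theorem LR.biUnion_finset {ι : Type*} {X : ℝ → Set E} {a : ℝ} {K : ι → Set E} {D : ι → ℕ → ℕ}
    (hX : Monotone X) (s : Finset ι) (hK : ∀ i ∈ s, IsCompact (K i))
    (hd : ∀ i ∈ s, ∀ j ∈ s, i ≠ j → Disjoint (K i) (K j)) (h : ∀ i ∈ s, LR X a (K i) (D i)) :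
    LR X a (⋃ i ∈ s, K i) fun q => ∑ i ∈ s, D i q := by
  classical
  induction s using Finset.induction_on with
  | empty => simpa using LR.empty (X := X) (a := a)
  | insert i s hi ih =>
    rw [Finset.set_biUnion_insert]
    simp only [Finset.sum_insert hi]
    refine LR.union_disjoint hX (hK i (Finset.mem_insert_self i s))
      (s.isCompact_biUnion fun j hj => hK j (Finset.mem_insert_of_mem hj)) ?_
      (h i (Finset.mem_insert_self i s)) (ih (fun j hj => hK j (Finset.mem_insert_of_mem hj))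
        (fun j hj l hl => hd j (Finset.mem_insert_of_mem hj) l (Finset.mem_insert_of_mem hl))
        fun j hj => h j (Finset.mem_insert_of_mem hj))
    rw [Set.disjoint_iUnion₂_right]
    exact fun j hj => hd i (Finset.mem_insert_self i s) j (Finset.mem_insert_of_mem hj)
      fun hij => hi (hij ▸ hj)

end Metric

end Vale.Agent.P216.GM
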