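import Vale.Agent.P216.GM.TW
import Vale.Agent.P216.H319.Loc
import Vale.Agent.P216.H844.F4Fin
import Vale.Agent.P216.H804.D6
import Vale.Agent.P216.Spine.Build2

/-!
# D6 for a closed Riemannian manifold (P216, Theorem A): LOCAL is complete
-/

open Set Topology Bundle Manifold
open scoped ContDiff
open Vale.Agent.P216.H288 Vale.Agent.P216.H494 Vale.Agent.P216.L250

namespace Vale.Agent.P216.GM

section

variable (E : Type) [NormedAddCommGroup E] [NormedSpace ℝ E] [FiniteDimensional ℝ E]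
  (M : Type) [MetricSpace M] [CompactSpace M] [ChartedSpace E M]
  [RiemannianBundle (fun x : M => TangentSpace 𝓘(ℝ, E) x)]
  [IsManifold 𝓘(ℝ, E) ∞ M]
  [IsContMDiffRiemannianBundle 𝓘(ℝ, E) ∞ E (fun x : M => TangentSpace 𝓘(ℝ, E) x)]
  [IsRiemannianManifold 𝓘(ℝ, E) M]

include E in
/-- **LOC** for a closed Riemannian manifold. -/
theorem loc_riemannian {ρ : ℝ} (hρ : 0 < ρ) (hs : LS.UniqSeg M ρ) : LOC M :=
  H319.loc (E := E) hρ hs (H844.f4_M E M)

include E in
/-- **D6** for a closed Riemannian manifold. -/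
theorem bound_riemannian {ρ : ℝ} (hρ : 0 < ρ) (hs : LS.UniqSeg M ρ) (H : Hol M) (G : GeoList M)
    (hB : (gsysOf H G hρ hs).Bars) : (gsysOf H G hρ hs).Bound :=
  bound hρ hs (loc_riemannian E M hρ hs) tw H G (descentStmt H G hρ hs) hB

end

end Vale.Agent.P216.GM
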