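import Mathlib.Analysis.Convex.Function
import Mathlib.Analysis.Convex.Topology
import Mathlib.Analysis.Normed.Module.Basic
import Mathlib.Topology.MetricSpace.Basic

/-! Elimination of variables: minima of strictly convex and maxima of strongly concave functions
depending on parameters. -/

open Set Filter Topology

namespace Vale.Agent.P216.G447

section argmin

variable {K N : Type*} [TopologicalSpace K] [TopologicalSpace N]

/-- Cluster points of minimisers are minimisers. -/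
theorem min_of_cluster {F : K → N → ℝ} {S : Set K} {C : Set N} 
    (hF : ContinuousOn (fun p : K × N => F p.1 p.2) (S ×ˢ C)) {m : K → N}
    (hmC : ∀ k ∈ S, m k ∈ C) (hm : ∀ k ∈ S, ∀ z ∈ C, F k (m k) ≤ F k z) {k : K} (hk : k ∈ S)
    {z : N} (hz : z ∈ C) (hcl : MapClusterPt z (𝓝[S] k) m) {w : N} (hw : w ∈ C) :
    F k z ≤ F k w := by
  by_contra hlt
  push Not at hlt
  obtain ⟨c, hc1, hc2⟩ := exists_between hlt
  have h1 : ∀ᶠ p in 𝓝[S ×ˢ C] (k, z), c < F p.1 p.2 :=
    (hF (k, z) ⟨hk, hz⟩).eventually (lt_mem_nhds hc2)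
  have h2 : ∀ᶠ p in 𝓝[S ×ˢ C] (k, w), F p.1 p.2 < c :=
    (hF (k, w) ⟨hk, hw⟩).eventually (gt_mem_nhds hc1)
  rw [nhdsWithin_prod_eq] at h1 h2
  have h3 : ∀ᶠ k' in 𝓝[S] k, F k' w < c := by
    have h4 : Tendsto (fun k' : K => (k', w)) (𝓝[S] k) (𝓝[S] k ×ˢ 𝓝[C] w) :=
      tendsto_id.prodMk
        (tendsto_nhdsWithin_iff.2 ⟨tendsto_const_nhds, Eventually.of_forall fun _ => hw⟩)
    exact h4.eventually h2
  obtain ⟨P, hP, R, hR, hPR⟩ := eventually_prod_iff.1 h1
  have h5 : ∃ᶠ k' in 𝓝[S] k, m k' ∈ C → R (m k') := by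
    have h6 : ∀ᶠ z' in 𝓝 z, z' ∈ C → R z' := eventually_nhdsWithin_iff.1 hR
    exact hcl.frequently h6
  obtain ⟨k', hk1, hk2, hk3, hk4⟩ :=
    (h5.and_eventually (hP.and (h3.and self_mem_nhdsWithin))).exists
  have h7 := hPR hk2 (hk1 (hmC k' hk4))
  have h8 := hm k' hk4 w hw
  linarith

/-- The unique minimiser of a function on a compact set depends continuously on parameters. -/
theorem exists_argmin {F : K → N → ℝ} {S : Set K} {C : Set N} (hC : IsCompact C)
    (hne : C.Nonempty) (hF : ContinuousOn (fun p : K × N => F p.1 p.2) (S ×ˢ C))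
    (huniq : ∀ k ∈ S, ∀ z ∈ C, ∀ z' ∈ C, (∀ w ∈ C, F k z ≤ F k w) → (∀ w ∈ C, F k z' ≤ F k w) →
      z = z') :
    ∃ m : K → N, (∀ k, m k ∈ C) ∧ (∀ k ∈ S, ∀ z ∈ C, F k (m k) ≤ F k z) ∧ ContinuousOn m S := by
  have hex : ∀ k, ∃ z ∈ C, k ∈ S → ∀ w ∈ C, F k z ≤ F k w := by
    intro k
    by_cases hk : k ∈ S
    · have hFk : ContinuousOn (F k) C := by
        have : ContinuousOn (fun z : N => (k, z)) C := by fun_prop
        exact hF.comp this fun z hz => ⟨hk, hz⟩
      obtain ⟨z, hz, hmin⟩ := hC.exists_isMinOn hne hFk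
      exact ⟨z, hz, fun _ w hw => hmin hw⟩
    · obtain ⟨z, hz⟩ := hne
      exact ⟨z, hz, fun h => absurd h hk⟩
  choose m hmC hm using hex
  refine ⟨m, hmC, fun k hk => hm k hk, fun k hk => ?_⟩
  refine hC.tendsto_nhds_of_unique_mapClusterPt (Eventually.of_forall fun k' => hmC k') ?_
  intro z hz hcl
  refine huniq k hk z hz (m k) (hmC k) (fun w hw => ?_) (fun w hw => hm k hk w hw)
  exact min_of_cluster hF (fun k' _ => hmC k') hm hk hz hcl hw

end argmin

end Vale.Agent.P216.G447
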