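import Vale.Agent.P216.GM.Spec

/-!
# From `K q`-gons to `K`-gons (P216, block LOCAL, `F3b`)
-/

open Set Filter Topology

namespace Vale.Agent.P216.GM

open Vale.Agent.P265.AS Vale.Agent.P216.H41 L250 LS H288 H494 H844

variable {M : Type} [MetricSpace M]

section Thin

variable {K q : ℕ} [NeZero K] [NeZero q]

/-- Every `q`-th vertex. -/
def thin (K q : ℕ) (y : ZMod (q * K) → M) : ZMod K → M := fun i => y ((q * i.val : ℕ) : ZMod (q * K))

theorem thin_natCast (y : ZMod (q * K) → M) (n : ℕ) :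
    thin K q y (n : ZMod K) = y ((q * n : ℕ) : ZMod (q * K)) := by
  unfold thin
  rw [ZMod.val_natCast]
  congr 1
  rw [ZMod.natCast_eq_natCast_iff]
  exact Nat.ModEq.mul_left' q (Nat.mod_modEq n K)

theorem dist_thin_le (y y' : ZMod (q * K) → M) : dist (thin K q y) (thin K q y') ≤ dist y y' :=
  (dist_pi_le_iff dist_nonneg).2 fun _ => dist_le_pi_dist y y' _

theorem sum_range_blocks (f : ℕ → ℝ) (q n : ℕ) :
    ∑ m ∈ Finset.range (q * n), f m = ∑ i ∈ Finset.range n, ∑ j ∈ Finset.range q, f (q * i + j) := by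
  induction n with
  | zero => simp
  | succ n ih => rw [mul_add, mul_one, Finset.sum_range_add, ih, Finset.sum_range_succ]

theorem E_thin_le (y : ZMod (q * K) → M) : E (thin K q y) ≤ E y := by
  rw [E, E, sum_zmod, sum_zmod, sum_range_blocks]
  have hq : (0 : ℝ) < q := cast_pos_K
  have hK : (0 : ℝ) < K := cast_pos_K
  have hcast : ((q * K : ℕ) : ℝ) = K * q := by push_cast; ring
  rw [hcast, mul_assoc]
  refine mul_le_mul_of_nonneg_left ?_ hK.le
  rw [Finset.mul_sum]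
  refine Finset.sum_le_sum fun n _ => ?_
  have e1 : ((n : ZMod K) + 1) = ((n + 1 : ℕ) : ZMod K) := by push_cast; rfl
  rw [e1, thin_natCast, thin_natCast]
  have h1 : dist (y ((q * n : ℕ) : ZMod (q * K))) (y ((q * (n + 1) : ℕ) : ZMod (q * K))) ≤
      ∑ j ∈ Finset.range q, dist (y ((q * n + j : ℕ) : ZMod (q * K)))
        (y (((q * n + j : ℕ) : ZMod (q * K)) + 1)) := by
    have := dist_le_range_sum_dist (fun j : ℕ => y ((q * n + j : ℕ) : ZMod (q * K))) q
    simp only [add_zero] at this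
    rw [mul_add, mul_one]
    refine this.trans (le_of_eq (Finset.sum_congr rfl fun j _ => ?_))
    congr 2
    push_cast
    ring
  have h2 := sq_sum_le_card_mul_sum_sq (s := Finset.range q)
    (f := fun j : ℕ => dist (y ((q * n + j : ℕ) : ZMod (q * K)))
        (y (((q * n + j : ℕ) : ZMod (q * K)) + 1)))
  rw [Finset.card_range] at h2
  exact (pow_le_pow_left₀ dist_nonneg h1 2).trans h2

theorem thin_sample {g : ℝ → M} (hg : Function.Periodic g 1) :
    thin K q (sample (q * K) g) = sample K g := by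
  funext i
  have hq : (0 : ℝ) < q := cast_pos_K
  have hK : (0 : ℝ) < K := cast_pos_K
  rw [thin, sample_natCast hg, sample]
  congr 1
  push_cast
  field_simp

theorem thin_mem {y : ZMod (q * K) → M} {s : ℝ} (h : y ∈ PL M (q * K) s) :
    thin K q y ∈ PL M K s := (E_thin_le y).trans h

end Thin

/-- **F3b.** -/
theorem f3b [CompactSpace M] : F3b M := by
  intro ρ r h hr0 hr K q _ _ a ha g hg hfix hS D hLR
  have hρ : 0 < ρ := hr0.trans_lt hr
  have hx0 : itpL (sampleL K g) = g := by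
    rw [← MiL_one_loc h hr ⟨hg, hS⟩]
    exact hfix 1 ⟨zero_le_one, le_rfl⟩
  set x₀ := sampleL K g with hx₀
  have hstep0 : ∀ i, dist (x₀ i) (x₀ (i + 1)) ≤ r := fun i => hS.step (fn_periodic g) i
  set r₀ : ℝ := (ρ - r) / 4 with hr₀
  have hr₀0 : 0 < r₀ := by rw [hr₀]; linarith
  set r₁ : ℝ := r + 2 * r₀ with hr₁
  have hr₁ρ : r₁ < ρ := by rw [hr₁, hr₀]; linarith
  have hstep : ∀ x ∈ nb {x₀} r₀, ∀ i, dist (x i) (x (i + 1)) ≤ r₁ := by
    rintro x ⟨y, rfl, hd⟩ i
    have h1 := (dist_pi_le_iff hr₀0.le).1 hd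
    calc dist (x i) (x (i + 1)) ≤ dist (x i) (x₀ i) + dist (x₀ i) (x₀ (i + 1)) +
          dist (x₀ (i + 1)) (x (i + 1)) := dist_triangle4 _ _ _ _
      _ ≤ r₀ + r + r₀ := by
          refine add_le_add (add_le_add (h1 i) (hstep0 i)) ?_
          rw [dist_comm]; exact h1 _
      _ = r₁ := by rw [hr₁]; ring
  have hPS : ∀ {x : ZMod K → M} {s : ℝ}, x ∈ nb {x₀} r₀ → x ∈ PL M K s →
      x ∈ PS M K r₁ (max s 0) := fun h1 h2 => ⟨h2, hstep _ h1⟩
  have ha1 : (0 : ℝ) ≤ max (a + 1) 0 := le_max_right _ _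
  have hcF : ContinuousOn (fun x : ZMod K → M => sampleL (q * K) (itpL x))
      (PS M K r₁ (max (a + 1) 0)) :=
    continuous_sampleL.comp_continuousOn (continuousOn_itpL_loc h hr₁ρ ha1)
  have hx₀P : x₀ ∈ Pl M K a := sampleL_mem hg
  have hx₀PS : x₀ ∈ PS M K r₁ (max (a + 1) 0) :=
    ⟨Pl_mono ha.le (le_max_of_le_left (by linarith)) hx₀P, fun i =>
      (hstep0 i).trans (by rw [hr₁]; linarith)⟩
  have hcomp : IsCompact (PS M K r₁ (max (a + 1) 0)) := isClosed_PS.isCompact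
  have hsubPS : nb {x₀} r₀ ∩ PL M K (a + 1) ⊆ PS M K r₁ (max (a + 1) 0) :=
    fun x hx => hPS hx.1 hx.2
  refine LR.of_maps hLR (F := fun x => sampleL (q * K) (itpL x)) (G := thin K q)
    (H := fun _ x => x) (r₀ := r₀) (e₁ := 1) hr₀0 one_pos PL_mono PL_mono
    ?_ ?_ ?_ ?_ ?_ ?_ ?_ ?_ ?_ ?_ ?_
  · intro s _ x hx hxs
    exact sampleL_mem (itpL_mem_loc h hr₁ρ (hPS hx hxs))
  · intro ρ' hρ'
    have h1 := hcF x₀ hx₀PS
    rw [Metric.continuousWithinAt_iff] at h1
    obtain ⟨δ, hδ, h2⟩ := h1 ρ' hρ'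
    refine ⟨min (δ / 2) r₀, lt_min (by positivity) hr₀0, fun x hx hxX => ?_⟩
    have hx' := nb_mono le_rfl (min_le_right (δ / 2) r₀) hx
    obtain ⟨y, rfl, hd⟩ := hx
    refine ⟨_, rfl, ?_⟩
    have h3 := h2 (hPS hx' hxX) (lt_of_le_of_lt (hd.trans (min_le_left _ _)) (by linarith))
    change dist (sampleL (q * K) (itpL x)) (sampleL (q * K) (itpL (sampleL K g))) < ρ' at h3
    rw [hx0] at h3
    exact h3.le
  · intro ε hε
    obtain ⟨δ, hδ, h1⟩ := uc_of_compact' hcomp hcF ε hε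
    exact ⟨δ, hδ, fun x hx y hy => h1 x (hsubPS hx) y (hsubPS hy)⟩
  · intro s _ x _ hxs
    exact thin_mem hxs
  · intro ρ' hρ'
    refine ⟨ρ', hρ', fun x hx _ => ?_⟩
    obtain ⟨y, rfl, hd⟩ := hx
    refine ⟨x₀, rfl, ?_⟩
    have h1 : thin K q (sampleL (q * K) g) = x₀ := thin_sample (fn_periodic g)
    rw [← h1]
    exact (dist_thin_le _ _).trans hd
  · exact fun ε hε => ⟨ε, hε, fun x _ y _ hxy => (dist_thin_le x y).trans_lt hxy⟩
  · exact fun s _ u _ x _ hx => hx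
  · exact fun ρ' hρ' => ⟨ρ', hρ', fun u _ x hx _ => hx⟩
  · exact fun ε hε => ⟨ε, hε, fun _ _ _ _ x _ y _ _ hxy => hxy⟩
  · exact fun x _ => rfl
  · intro x hx
    have h1 := hstep x hx.1
    have h2 : ∀ i, dist (x i) (x (i + 1)) < ρ := fun i => (h1 i).trans_lt hr₁ρ
    have h3 : thin K q (sampleL (q * K) (itpL x)) = sampleL K (itpL x) :=
      thin_sample (fn_periodic _)
    show x = thin K q (sampleL (q * K) (itpL x))
    rw [h3, sampleL_itpL_loc h h2]

end Vale.Agent.P216.GM
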