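import Mathlib.Dynamics.PeriodicPts.Lemmas
import Mathlib.RingTheory.Noetherian.Basic
import Mathlib.LinearAlgebra.FiniteDimensional.Basic

/-! Periodic vectors of a linear map of a finite-dimensional space: the kernels of `P ^ m - 1`
depend only on `gcd m D` for a suitable `D`. -/

namespace Vale.Agent.P216.GM

variable {K V : Type*} [Ring K] [AddCommGroup V] [Module K V]

/-- The submodule of vectors of period `m` under `P`. -/
def perSub (P : V →ₗ[K] V) (m : ℕ) : Submodule K V := LinearMap.ker (P ^ m - 1)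

theorem mem_perSub (P : V →ₗ[K] V) (m : ℕ) (v : V) :
    v ∈ perSub P m ↔ Function.IsPeriodicPt P m v := by
  unfold perSub Function.IsPeriodicPt Function.IsFixedPt
  rw [LinearMap.mem_ker, LinearMap.sub_apply, Module.End.one_apply, sub_eq_zero,
    Module.End.pow_apply]

theorem perSub_mono (P : V →ₗ[K] V) {a b : ℕ} (h : a ∣ b) : perSub P a ≤ perSub P b := by
  intro v hv
  rw [mem_perSub] at hv ⊢
  obtain ⟨c, rfl⟩ := h
  exact hv.mul_const c

theorem perSub_inf (P : V →ₗ[K] V) (a b : ℕ) : perSub P a ⊓ perSub P b = perSub P (a.gcd b) := by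
  apply le_antisymm
  · rintro v ⟨h1, h2⟩
    rw [SetLike.mem_coe, mem_perSub] at h1 h2
    rw [mem_perSub]
    exact h1.gcd h2
  · exact le_inf (perSub_mono P (Nat.gcd_dvd_left a b)) (perSub_mono P (Nat.gcd_dvd_right a b))

/-- All periodic vectors of a linear map of a noetherian module have a common period. -/
theorem exists_common_period [IsNoetherian K V] (P : V →ₗ[K] V) :
    ∃ D : ℕ, 0 < D ∧ ∀ m : ℕ, 0 < m → perSub P m ≤ perSub P D := by
  let f : ℕ →o Submodule K V :=
    ⟨fun n => perSub P n.factorial, fun a b h => perSub_mono P (Nat.factorial_dvd_factorial h)⟩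
  obtain ⟨N, hN⟩ := monotone_stabilizes_iff_noetherian.mpr ‹IsNoetherian K V› f
  refine ⟨N.factorial, Nat.factorial_pos N, fun m hm => ?_⟩
  have h1 : perSub P m ≤ perSub P (max m N).factorial :=
    perSub_mono P ((Nat.dvd_factorial hm le_rfl).trans
      (Nat.factorial_dvd_factorial (le_max_left m N)))
  have h2 := hN (max m N) (le_max_right m N)
  exact h1.trans (le_of_eq h2.symm)

/-- The space of vectors of period `m` depends only on `gcd m D`. -/
theorem exists_gcd_period [IsNoetherian K V] (P : V →ₗ[K] V) :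
    ∃ D : ℕ, 0 < D ∧ ∀ m : ℕ, 0 < m → perSub P m = perSub P (m.gcd D) := by
  obtain ⟨D, hD, h⟩ := exists_common_period P
  refine ⟨D, hD, fun m hm => ?_⟩
  rw [← perSub_inf]
  exact (inf_eq_left.mpr (h m hm)).symm

end Vale.Agent.P216.GM
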