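import Vale.Agent.P216.H41.Fin3

/-!
# Local ranks of a filtration (P216, block LOCAL)

`LR X a K D`: the rank of the restriction of the pair `(X t, X s)` from a neighbourhood of `K` to a
small neighbourhood of `K` is at most `D q` in degree `q`, for all levels `s < a < t` close to `a`
and all fields. Comparison of local ranks under maps.
-/

open Set

namespace Vale.Agent.P216.GM

open Vale.Agent.P265.AS Vale.Agent.P216.H41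

variable {E E' : Type} [PseudoMetricSpace E] [PseudoMetricSpace E']

/-- The closed `r`-neighbourhood of `K`. -/
def nb (K : Set E) (r : ℝ) : Set E := {x | ∃ y ∈ K, dist x y ≤ r}

theorem mem_nb {K : Set E} {r : ℝ} {x : E} : x ∈ nb K r ↔ ∃ y ∈ K, dist x y ≤ r := Iff.rfl

theorem nb_mono {K K' : Set E} {r r' : ℝ} (hK : K ⊆ K') (hr : r ≤ r') : nb K r ⊆ nb K' r' := by
  rintro x ⟨y, hy, h⟩
  exact ⟨y, hK hy, h.trans hr⟩

theorem subset_nb {K : Set E} {r : ℝ} (hr : 0 ≤ r) : K ⊆ nb K r := fun x hx =>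
  ⟨x, hx, by rwa [dist_self]⟩

theorem nb_union {K L : Set E} {r : ℝ} : nb (K ∪ L) r = nb K r ∪ nb L r := by
  ext x
  constructor
  · rintro ⟨y, hy | hy, h⟩
    · exact Or.inl ⟨y, hy, h⟩
    · exact Or.inr ⟨y, hy, h⟩
  · rintro (⟨y, hy, h⟩ | ⟨y, hy, h⟩)
    · exact ⟨y, Or.inl hy, h⟩
    · exact ⟨y, Or.inr hy, h⟩

theorem nb_empty {r : ℝ} : nb (∅ : Set E) r = ∅ := by
  ext x
  simp [nb]

theorem nb_singleton {p : E} {r : ℝ} : nb {p} r = Metric.closedBall p r := by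
  ext x
  simp [nb, Metric.mem_closedBall]

theorem nb_inter_subset {K L : Set E} {r : ℝ} : nb (K ∩ L) r ⊆ nb K r ∩ nb L r :=
  subset_inter (nb_mono inter_subset_left le_rfl) (nb_mono inter_subset_right le_rfl)

/-- **Local rank** of the filtration `X` at the level `a` along `K`. -/
def LR (X : ℝ → Set E) (a : ℝ) (K : Set E) (D : ℕ → ℕ) : Prop :=
  ∀ r > 0, ∃ r' > 0, ∃ e₀ > 0, ∀ s t, a - e₀ < s → s < a → a < t → t < a + e₀ →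
    ∀ (k : Type) [Field k] (q : ℕ),
      rk id (1 : k) (nb K r ∩ X t) (nb K r ∩ X s) (nb K r' ∩ X t) (nb K r' ∩ X s) q ≤
        (D q : Cardinal)

/-- The rank of the restriction between pairs is at most the rank of another one if the inclusion
factors through the latter up to homotopy. -/
theorem rk_le_rk {k : Type} [Field k] {g : E → E} {g' : E' → E'} {X₁ A₁ X₄ A₄ : Set E}
    {X₂ A₂ X₃ A₃ : Set E'} {F : E → E'} {G : E' → E} {H : ℝ → E → E}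
    (hF : IsMapP g g' X₄ A₄ X₃ A₃ F) (hG : IsMapP g' g X₂ A₂ X₁ A₁ G)
    (hH : IsHtpy g g X₄ A₄ X₁ A₁ H) (h0 : ∀ x ∈ X₄, H 0 x = x) (h1 : ∀ x ∈ X₄, H 1 x = G (F x))
    (hA₄ : A₄ ⊆ X₄) (hA₂ : A₂ ⊆ X₂) (χ : k) (p : ℕ) :
    rk g χ X₁ A₁ X₄ A₄ p ≤ rk g' χ X₂ A₂ X₃ A₃ p := by
  refine qr_le_of_inj (pb G) (fun c hc => pb_mem_Zs hG hA₂ hc) fun c hc hcB => ?_
  have e1 := pb_mem_Bs hF hA₄ hcB
  have e2 := homotopy hH hA₄ hc
  have e3 := (Bs g χ X₄ A₄ p).sub_mem e1 e2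
  refine Bs_congr e3 one_pos fun x hx => ?_
  have a0 : H 0 ∘ x = x := funext fun i => h0 _ (hx.1 i)
  have a1 : H 1 ∘ x = G ∘ F ∘ x := funext fun i => h1 _ (hx.1 i)
  simp only [Pi.sub_apply, pb_apply, a0, a1]
  ring

theorem rk_empty {k : Type} [Field k] (g : E → E) (χ : k) (X' A' : Set E) (p : ℕ) :
    rk g χ X' A' ∅ ∅ p = 0 := by
  refine qr_eq_zero_iff.2 fun c hc => ?_
  exact ⟨0, fun x _ => by simp, 1, one_pos, fun x hx => absurd (hx.1 0) (notMem_empty _),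
    fun x _ => rfl⟩

namespace LR

variable {X : ℝ → Set E} {X' : ℝ → Set E'} {a : ℝ} {K : Set E} {K' : Set E'} {D D' : ℕ → ℕ}

theorem mono (h : LR X a K D) (hD : ∀ q, D q ≤ D' q) : LR X a K D' := by
  intro r hr
  obtain ⟨r', hr', e₀, he₀, h1⟩ := h r hr
  exact ⟨r', hr', e₀, he₀, fun s t hs hs' ht ht' k _ q =>
    (h1 s t hs hs' ht ht' k q).trans (by exact_mod_cast hD q)⟩

theorem empty : LR X a (∅ : Set E) fun _ => 0 := by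
  intro r _
  refine ⟨1, one_pos, 1, one_pos, fun s t _ _ _ _ k _ q => ?_⟩
  simp only [nb_empty, empty_inter, rk_empty, Nat.cast_zero, le_refl]

/-- Only the small radii matter, and the bound holds for all smaller target radii. -/
theorem exists_le (h : LR X a K D) {r : ℝ} (hr : 0 < r) {ρ : ℝ} (hρ : 0 < ρ) :
    ∃ r' > 0, r' ≤ ρ ∧ ∃ e₀ > 0, ∀ s t, a - e₀ < s → s < a → a < t → t < a + e₀ →
      ∀ (k : Type) [Field k] (q : ℕ), ∀ σ, r ≤ σ →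
        rk id (1 : k) (nb K σ ∩ X t) (nb K σ ∩ X s) (nb K r' ∩ X t) (nb K r' ∩ X s) q ≤
          (D q : Cardinal) := by
  obtain ⟨r', hr', e₀, he₀, h1⟩ := h r hr
  refine ⟨min r' ρ, lt_min hr' hρ, min_le_right _ _, e₀, he₀,
    fun s t hs hs' ht ht' k _ q σ hσ => ?_⟩
  refine le_trans (rk_mono ?_ ?_ ?_ ?_ q) (h1 s t hs hs' ht ht' k q)
  · exact inter_subset_inter_left _ (nb_mono le_rfl hσ)
  · exact inter_subset_inter_left _ (nb_mono le_rfl hσ)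
  · exact inter_subset_inter_left _ (nb_mono le_rfl (min_le_left _ _))
  · exact inter_subset_inter_left _ (nb_mono le_rfl (min_le_left _ _))

/-- **Comparison of local ranks.** `F : (E, K) → (E', K')`, `G : (E', K') → (E, K)` and
`H : id ≃ G ∘ F` are defined near `K`, `K'` and preserve the filtrations. -/
theorem of_maps (h : LR X' a K' D) {F : E → E'} {G : E' → E} {H : ℝ → E → E} {r₀ e₁ : ℝ}
    (hr₀ : 0 < r₀) (he₁ : 0 < e₁) (hX : Monotone X) (hX' : Monotone X')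
    (hF : ∀ s, |s - a| < e₁ → ∀ x ∈ nb K r₀, x ∈ X s → F x ∈ X' s)
    (hFK : ∀ ρ > 0, ∃ δ > 0, ∀ x ∈ nb K δ, x ∈ X (a + e₁) → F x ∈ nb K' ρ)
    (hFu : ∀ ε > 0, ∃ δ > 0, ∀ x ∈ nb K r₀ ∩ X (a + e₁), ∀ y ∈ nb K r₀ ∩ X (a + e₁),
      dist x y < δ → dist (F x) (F y) < ε)
    (hG : ∀ s, |s - a| < e₁ → ∀ x ∈ nb K' r₀, x ∈ X' s → G x ∈ X s)
    (hGK : ∀ ρ > 0, ∃ δ > 0, ∀ x ∈ nb K' δ, x ∈ X' (a + e₁) → G x ∈ nb K ρ)
    (hGu : ∀ ε > 0, ∃ δ > 0, ∀ x ∈ nb K' r₀ ∩ X' (a + e₁), ∀ y ∈ nb K' r₀ ∩ X' (a + e₁),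
      dist x y < δ → dist (G x) (G y) < ε)
    (hH : ∀ s, |s - a| < e₁ → ∀ u ∈ Icc (0 : ℝ) 1, ∀ x ∈ nb K r₀, x ∈ X s → H u x ∈ X s)
    (hHK : ∀ ρ > 0, ∃ δ > 0, ∀ u ∈ Icc (0 : ℝ) 1, ∀ x ∈ nb K δ, x ∈ X (a + e₁) → H u x ∈ nb K ρ)
    (hHu : ∀ ε > 0, ∃ δ > 0, ∀ u ∈ Icc (0 : ℝ) 1, ∀ v ∈ Icc (0 : ℝ) 1,
      ∀ x ∈ nb K r₀ ∩ X (a + e₁), ∀ y ∈ nb K r₀ ∩ X (a + e₁),
      |u - v| < δ → dist x y < δ → dist (H u x) (H v y) < ε)
    (h0 : ∀ x ∈ nb K r₀ ∩ X (a + e₁), H 0 x = x)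
    (h1 : ∀ x ∈ nb K r₀ ∩ X (a + e₁), H 1 x = G (F x)) : LR X a K D := by
  intro r hr
  obtain ⟨δG, hδG, hG1⟩ := hGK r hr
  obtain ⟨ρ', hρ', -, e₂, he₂, h2⟩ :=
    h.exists_le (r := min δG r₀) (lt_min hδG hr₀) (ρ := r₀) hr₀
  obtain ⟨δF, hδF, hF1⟩ := hFK ρ' hρ'
  obtain ⟨δH, hδH, hH1⟩ := hHK r hr
  refine ⟨min (min δF δH) r₀, lt_min (lt_min hδF hδH) hr₀, min e₁ e₂, lt_min he₁ he₂,
    fun s t hs hs' ht ht' k _ q => ?_⟩
  have hmin₁ : min e₁ e₂ ≤ e₁ := min_le_left _ _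
  have hmin₂ : min e₁ e₂ ≤ e₂ := min_le_right _ _
  have hp : |t - a| < e₁ := by rw [abs_of_pos (by linarith)]; linarith
  have hm : |s - a| < e₁ := by rw [abs_of_neg (by linarith)]; linarith
  have hsub : X t ⊆ X (a + e₁) := hX (by linarith)
  have hsub' : X' t ⊆ X' (a + e₁) := hX' (by linarith)
  have hmp : X s ⊆ X t := hX (by linarith)
  have hmp' : X' s ⊆ X' t := hX' (by linarith)
  set r' : ℝ := min (min δF δH) r₀ with hr'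
  have hr₀' : nb K r' ⊆ nb K r₀ := nb_mono le_rfl (min_le_right _ _)
  have hrF : nb K r' ⊆ nb K δF := nb_mono le_rfl ((min_le_left _ _).trans (min_le_left _ _))
  have hrH : nb K r' ⊆ nb K δH := nb_mono le_rfl ((min_le_left _ _).trans (min_le_right _ _))
  set σ' : ℝ := min δG r₀ with hσ'
  have hs₀ : nb K' σ' ⊆ nb K' r₀ := nb_mono le_rfl (min_le_right _ _)
  have hsG : nb K' σ' ⊆ nb K' δG := nb_mono le_rfl (min_le_left _ _)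
  refine le_trans (rk_le_rk (g' := id) (F := F) (G := G) (H := H)
    (X₂ := nb K' σ' ∩ X' t) (A₂ := nb K' σ' ∩ X' s)
    (X₃ := nb K' ρ' ∩ X' t) (A₃ := nb K' ρ' ∩ X' s)
    ⟨?_, ?_, fun _ _ => rfl, ?_⟩ ⟨?_, ?_, fun _ _ => rfl, ?_⟩
    ⟨?_, ?_, fun _ _ _ _ => rfl, ?_⟩ ?_ ?_ ?_ ?_ (1 : k) q)
    (h2 s t (by linarith) hs' ht (by linarith) k q _ le_rfl)
  · exact fun x hx => ⟨hF1 x (hrF hx.1) (hsub hx.2), hF _ hp x (hr₀' hx.1) hx.2⟩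
  · exact fun x hx => ⟨hF1 x (hrF hx.1) (hsub (hmp hx.2)), hF _ hm x (hr₀' hx.1) hx.2⟩
  · intro ε hε
    obtain ⟨δ, hδ, h3⟩ := hFu ε hε
    exact ⟨δ, hδ, fun x hx y hy => h3 x ⟨hr₀' hx.1, hsub hx.2⟩ y ⟨hr₀' hy.1, hsub hy.2⟩⟩
  · exact fun x hx => ⟨hG1 x (hsG hx.1) (hsub' hx.2), hG _ hp x (hs₀ hx.1) hx.2⟩
  · exact fun x hx => ⟨hG1 x (hsG hx.1) (hsub' (hmp' hx.2)), hG _ hm x (hs₀ hx.1) hx.2⟩
  · intro ε hε
    obtain ⟨δ, hδ, h3⟩ := hGu ε hε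
    exact ⟨δ, hδ, fun x hx y hy => h3 x ⟨hs₀ hx.1, hsub' hx.2⟩ y ⟨hs₀ hy.1, hsub' hy.2⟩⟩
  · exact fun u hu x hx => ⟨hH1 u hu x (hrH hx.1) (hsub hx.2), hH _ hp u hu x (hr₀' hx.1) hx.2⟩
  · exact fun u hu x hx =>
      ⟨hH1 u hu x (hrH hx.1) (hsub (hmp hx.2)), hH _ hm u hu x (hr₀' hx.1) hx.2⟩
  · intro ε hε
    obtain ⟨δ, hδ, h3⟩ := hHu ε hε
    exact ⟨δ, hδ, fun u hu v hv x hx y hy =>
      h3 u hu v hv x ⟨hr₀' hx.1, hsub hx.2⟩ y ⟨hr₀' hy.1, hsub hy.2⟩⟩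
  · exact fun x hx => h0 x ⟨hr₀' hx.1, hsub hx.2⟩
  · exact fun x hx => h1 x ⟨hr₀' hx.1, hsub hx.2⟩
  · exact inter_subset_inter_right _ hmp
  · exact inter_subset_inter_right _ hmp'

end LR

end Vale.Agent.P216.GM
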