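import Vale.Agent.P216.GM.Arc

/-!
# Local ranks with four levels (P216, block LOCAL)

`LR4 X a K D` is the form of the local rank in which the two pairs are taken at different levels:
`s' < s < a < t' < t`.  It follows from `LR` and, for a right-continuous family of compact sets, it
implies `LR` (tautness of the Alexander-Spanier cohomology of compact pairs).
-/

open Set

namespace Vale.Agent.P216.GM

open Vale.Agent.P265.AS Vale.Agent.P216.H41

/-! ### Linear algebra -/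

section LinearAlgebra

variable {k F : Type} [Field k] [AddCommGroup F] [Module k F]

/-- `Z / B` is bounded as soon as every finite set of elements of `Z` can be moved, modulo `B`, to
a subspace `Z'` for which the bound holds. -/
theorem qr_le_of_finite {Z B : Submodule k F} {N : ℕ}
    (h : ∀ s : Finset F, (∀ c ∈ s, c ∈ Z) →
      ∃ Z' : Submodule k F, qr Z' B ≤ (N : Cardinal) ∧ ∀ c ∈ s, ∃ c' ∈ Z', c - c' ∈ B) :
    qr Z B ≤ (N : Cardinal) := by
  classical
  refine rank_le fun S hS => ?_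
  have hrep : ∀ x : Z ⧸ B.comap Z.subtype, ∃ c : Z, (B.comap Z.subtype).mkQ c = x :=
    Submodule.mkQ_surjective _
  choose rep hr using hrep
  obtain ⟨Z', hZ', hm⟩ := h (S.image fun x => (rep x : F)) (by
    intro c hc
    obtain ⟨x, -, rfl⟩ := Finset.mem_image.1 hc
    exact (rep x).2)
  have hm' : ∀ x : S, ∃ c' : Z', (rep (x : Z ⧸ B.comap Z.subtype) : F) - c' ∈ B := fun x => by
    obtain ⟨c', hc', hB⟩ := hm _ (Finset.mem_image.2 ⟨x, x.2, rfl⟩)
    exact ⟨⟨c', hc'⟩, hB⟩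
  choose w hw using hm'
  have hli : LinearIndependent k fun x : S => (B.comap Z'.subtype).mkQ (w x) := by
    rw [Fintype.linearIndependent_iff] at hS ⊢
    intro g hg i
    refine hS g ?_ i
    have h1 : ∑ x : S, g x • ((w x : Z') : F) ∈ B := by
      have h2 : (B.comap Z'.subtype).mkQ (∑ x : S, g x • w x) = 0 := by
        rw [map_sum]
        simpa using hg
      rw [Submodule.mkQ_apply, Submodule.Quotient.mk_eq_zero] at h2
      simpa using h2
    have h3 : ∑ x : S, g x • ((rep (x : Z ⧸ B.comap Z.subtype) : Z) : F) ∈ B := by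
      have h4 : ∑ x : S, g x • ((rep (x : Z ⧸ B.comap Z.subtype) : Z) : F) =
          ∑ x : S, g x • ((rep (x : Z ⧸ B.comap Z.subtype) : F) - (w x : F)) +
            ∑ x : S, g x • ((w x : Z') : F) := by
        rw [← Finset.sum_add_distrib]
        refine Finset.sum_congr rfl fun x _ => ?_
        rw [← smul_add, sub_add_cancel]
      rw [h4]
      exact B.add_mem (B.sum_mem fun x _ => B.smul_mem _ (hw x)) h1
    have h5 : (B.comap Z.subtype).mkQ (∑ x : S, g x • rep (x : Z ⧸ B.comap Z.subtype)) = 0 := by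
      rw [Submodule.mkQ_apply, Submodule.Quotient.mk_eq_zero]
      simpa using h3
    rw [map_sum] at h5
    simpa [hr] using h5
  have h6 := hli.cardinal_le_rank
  have h7 : (Fintype.card S : Cardinal) ≤ (N : Cardinal) := by
    rw [← Cardinal.mk_fintype]
    exact h6.trans hZ'
  have h8 : Fintype.card S ≤ N := by exact_mod_cast h7
  simpa using h8

end LinearAlgebra

/-! ### Extension of cocycles to a neighbourhood -/

section Extension

variable {E : Type} [PseudoMetricSpace E] {k : Type} [Field k]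

open Classical in
/-- A point of `A` close to `x` if `x` lies in `B`, otherwise a point of `X` close to `x`. -/
noncomputable def nu (X A B : Set E) (δ : ℝ) (x : E) : E :=
  if h : x ∈ B ∧ ∃ y ∈ A, dist x y < δ then h.2.choose
  else if h' : ∃ y ∈ X, dist x y < δ then h'.choose else x

theorem nu_mem_A {X A B : Set E} {δ : ℝ} (hB : ∀ x ∈ B, ∃ y ∈ A, dist x y < δ) {x : E}
    (hx : x ∈ B) : nu X A B δ x ∈ A ∧ dist x (nu X A B δ x) < δ := by
  have h : x ∈ B ∧ ∃ y ∈ A, dist x y < δ := ⟨hx, hB x hx⟩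
  rw [nu, dif_pos h]
  exact h.2.choose_spec

theorem nu_mem_X {X A B Y : Set E} {δ : ℝ} (hAX : A ⊆ X)
    (hY : ∀ x ∈ Y, ∃ y ∈ X, dist x y < δ) {x : E} (hx : x ∈ Y) :
    nu X A B δ x ∈ X ∧ dist x (nu X A B δ x) < δ := by
  unfold nu
  split_ifs with h h'
  · exact ⟨hAX h.2.choose_spec.1, h.2.choose_spec.2⟩
  · exact h'.choose_spec
  · exact absurd (hY x hx) h'

omit [PseudoMetricSpace E] in
theorem eqv_id {X : Set E} {n : ℕ} (c : (Fin n → E) → k) : Eqv id (1 : k) X c :=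
  fun x _ => by rw [one_mul]; rfl

omit [PseudoMetricSpace E] in
/-- The chain homotopy, on functions. -/
theorem sub_pb (ν : E → E) {n : ℕ} (f : (Fin (n + 1) → E) → k) (x : Fin (n + 1) → E) :
    f x - pb ν f x = d (prism ν id f) x + prism ν id (d f) x := by
  have h := d_prism ν id f x
  rw [pb_apply]
  rw [show id ∘ x = x from rfl] at h
  linear_combination -h

/-- A cocycle on a pair `(X, A)`, which vanishes on the `ε`-small tuples of `A` and is closed on the
`ε`-small tuples of `X`, extends to every pair `(Y, B)` at distance `< ε / 4` from `(X, A)`. -/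
theorem extend {X A Y B : Set E} (hAX : A ⊆ X) (hXY : X ⊆ Y) (hAB : A ⊆ B) (hBY : B ⊆ Y)
    {ε : ℝ} (hε : 0 < ε) (hY : ∀ x ∈ Y, ∃ y ∈ X, dist x y < ε / 4)
    (hB : ∀ x ∈ B, ∃ y ∈ A, dist x y < ε / 4) {p : ℕ} {c : (Fin (p + 1) → E) → k}
    (h1 : ∀ x, Sm X ε x → d c x = 0) (h2 : ∀ x, Sm A ε x → c x = 0) :
    pb (nu X A B (ε / 4)) c ∈ Zs id (1 : k) Y B p ∧
      c - pb (nu X A B (ε / 4)) c ∈ Bs id (1 : k) X A p := by
  set ν := nu X A B (ε / 4) with hν
  have hνX : ∀ x ∈ Y, ν x ∈ X ∧ dist x (ν x) < ε / 4 := fun x hx => nu_mem_X hAX hY hx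
  have hνA : ∀ x ∈ B, ν x ∈ A ∧ dist x (ν x) < ε / 4 := fun x hx => nu_mem_A hB hx
  have hd : ∀ {n : ℕ} (x : Fin n → E), Sm Y (ε / 4) x → ∀ i j, dist (ν (x i)) (ν (x j)) < ε := by
    intro n x hx i j
    have h3 := hx.2 i j
    have h4 := (hνX _ (hx.1 i)).2
    have h5 := (hνX _ (hx.1 j)).2
    have h6 := dist_triangle4 (ν (x i)) (x i) (x j) (ν (x j))
    rw [dist_comm (ν (x i)) (x i)] at h6
    linarith
  have hmix : ∀ {n m : ℕ} (x : Fin n → E) (y : Fin m → E), Sm Y (ε / 4) x →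
      (∀ i, ∃ j, y i = ν (x j) ∨ y i = id (x j)) → ∀ i j, dist (y i) (y j) < ε := by
    intro n m x y hx hy i j
    have key : ∀ i, ∃ l, dist (y i) (x l) < ε / 4 := by
      intro i
      obtain ⟨l, hl | hl⟩ := hy i
      · exact ⟨l, by rw [hl, dist_comm]; exact (hνX _ (hx.1 l)).2⟩
      · exact ⟨l, by rw [hl, id_eq, dist_self]; positivity⟩
    obtain ⟨l, hl⟩ := key i
    obtain ⟨l', hl'⟩ := key j
    have h3 := hx.2 l l'
    have h4 := dist_triangle4 (y i) (x l) (x l') (y j)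
    rw [dist_comm (x l') (y j)] at h4
    linarith
  refine ⟨⟨eqv_id _, ε / 4, by positivity, fun x hx => ?_, fun x hx => ?_⟩,
    prism ν id c, eqv_id _, ε / 4, by positivity, fun x hx => ?_, fun x hx => ?_⟩
  · rw [d_pb, pb_apply]
    exact h1 _ ⟨fun i => (hνX _ (hx.1 i)).1, hd x hx⟩
  · rw [pb_apply]
    exact h2 _ ⟨fun i => (hνA _ (hx.1 i)).1, hd x (hx.mono hBY le_rfl)⟩
  · rw [Pi.sub_apply, sub_pb, prism_eq_zero ν id (c := d c), add_zero]
    intro y hy
    refine h1 y ⟨fun i => ?_, hmix x y (hx.mono hXY le_rfl) hy⟩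
    obtain ⟨l, hl | hl⟩ := hy i
    · rw [hl]; exact (hνX _ (hXY (hx.1 l))).1
    · rw [hl]; exact hx.1 l
  · refine prism_eq_zero ν id fun y hy => ?_
    refine h2 y ⟨fun i => ?_, hmix x y (hx.mono (hAX.trans hXY) le_rfl) hy⟩
    obtain ⟨l, hl | hl⟩ := hy i
    · rw [hl]; exact (hνA _ (hAB (hx.1 l))).1
    · rw [hl]; exact hx.1 l

/-- **Continuity of the ranks.** If `(X, A)` is approximated from above by pairs `(Y, B)` for which
the rank of `(Y, B) → (X', A')` is at most `N`, then the rank of `(X, A) → (X', A')` is at most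
`N`. -/
theorem rk_le_of_approx {X A X' A' : Set E} (hAX : A ⊆ X) (hX' : X' ⊆ X) (hA' : A' ⊆ A) {q N : ℕ}
    (h : ∀ δ > 0, ∃ Y B : Set E, X ⊆ Y ∧ A ⊆ B ∧ B ⊆ Y ∧ (∀ x ∈ Y, ∃ y ∈ X, dist x y < δ) ∧
      (∀ x ∈ B, ∃ y ∈ A, dist x y < δ) ∧ rk id (1 : k) Y B X' A' q ≤ (N : Cardinal)) :
    rk id (1 : k) X A X' A' q ≤ (N : Cardinal) := by
  classical
  refine qr_le_of_finite fun s hs => ?_
  -- a common `ε`
  have hε : ∃ ε > 0, ∀ c ∈ s, (∀ x, Sm X ε x → d c x = 0) ∧ ∀ x, Sm A ε x → c x = 0 := by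
    induction s using Finset.induction_on with
    | empty => exact ⟨1, one_pos, fun c hc => absurd hc (Finset.notMem_empty c)⟩
    | insert c s _ ih =>
      obtain ⟨ε, hε, h1⟩ := ih fun c hc => hs c (Finset.mem_insert_of_mem hc)
      obtain ⟨-, ε', hε', h2, h3⟩ := hs c (Finset.mem_insert_self c s)
      refine ⟨min ε ε', lt_min hε hε', fun c' hc' => ?_⟩
      rcases Finset.mem_insert.1 hc' with rfl | hc'
      · exact ⟨fun x hx => h2 x (hx.mono le_rfl (min_le_right _ _)),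
          fun x hx => h3 x (hx.mono le_rfl (min_le_right _ _))⟩
      · exact ⟨fun x hx => (h1 c' hc').1 x (hx.mono le_rfl (min_le_left _ _)),
          fun x hx => (h1 c' hc').2 x (hx.mono le_rfl (min_le_left _ _))⟩
  obtain ⟨ε, hε, h1⟩ := hε
  obtain ⟨Y, B, hXY, hAB, hBY, hY, hB, hrk⟩ := h (ε / 4) (by positivity)
  refine ⟨Zs id 1 Y B q, hrk, fun c hc => ⟨_, (extend hAX hXY hAB hBY hε hY hB
    (h1 c hc).1 (h1 c hc).2).1, ?_⟩⟩
  exact Bs_restrict hX' hA' (extend hAX hXY hAB hBY hε hY hB (h1 c hc).1 (h1 c hc).2).2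

end Extension

/-! ### Right-continuous families of compact sets -/

section RightCont

variable {E : Type} [PseudoMetricSpace E]

/-- The sets `C ∩ X t'` with `t' > t` close to `t` lie in a small neighbourhood of `C ∩ X t`. -/
theorem exists_gt_near {X : ℝ → Set E} (hc : ∀ s, IsCompact (X s)) (hcl : ∀ s, IsClosed (X s))
    (hX : Monotone X) (hr : ∀ s x, (∀ t, s < t → x ∈ X t) → x ∈ X s) {C : Set E}
    (hC : IsClosed C) {t b : ℝ} (htb : t < b) {δ : ℝ} (hδ : 0 < δ) :
    ∃ t', t < t' ∧ t' < b ∧ ∀ u, t < u → u ≤ t' → ∀ x ∈ C ∩ X u, ∃ y ∈ C ∩ X t, dist x y < δ := by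
  by_contra hcon
  push Not at hcon
  have hu : ∀ n : ℕ, t + (b - t) / (n + 2) < b ∧ t < t + (b - t) / (n + 2) := fun n => by
    have h0 : 0 < b - t := sub_pos.2 htb
    constructor
    · have : (b - t) / (n + 2) < b - t := by
        rw [div_lt_iff₀ (by positivity)]
        nlinarith [(Nat.cast_nonneg n : (0 : ℝ) ≤ n)]
      linarith
    · have : 0 < (b - t) / ((n : ℝ) + 2) := by positivity
      linarith
  have hx : ∀ n : ℕ, ∃ x, x ∈ C ∧ x ∈ X (t + (b - t) / (n + 2)) ∧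
      ∀ y ∈ C ∩ X t, δ ≤ dist x y := by
    intro n
    obtain ⟨u, hu1, hu2, x, hx, h⟩ := hcon _ (hu n).2 (hu n).1
    exact ⟨x, hx.1, hX hu2 hx.2, h⟩
  choose x hxC hxX hxy using hx
  obtain ⟨w, hw, φ, hφ, hlim⟩ := (hc b).tendsto_subseq fun n => hX (hu n).1.le (hxX n)
  have h0 : Filter.Tendsto (fun n : ℕ => t + (b - t) / (n + 2)) Filter.atTop (nhds t) := by
    have h1 : Filter.Tendsto (fun n : ℕ => (b - t) / ((n : ℝ) + 2)) Filter.atTop (nhds 0) := by
      refine Filter.Tendsto.div_atTop tendsto_const_nhds ?_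
      exact Filter.tendsto_atTop_add_const_right _ _ tendsto_natCast_atTop_atTop
    simpa using h1.const_add t
  have h0' := h0.comp hφ.tendsto_atTop
  have hwC : w ∈ C := hC.mem_of_tendsto hlim (Filter.Eventually.of_forall fun n => hxC _)
  have hwX : w ∈ X t := by
    refine hr t w fun u hu => (hcl u).mem_of_tendsto hlim ?_
    filter_upwards [h0'.eventually (gt_mem_nhds hu)] with n hn
    exact hX (le_of_lt hn) (hxX _)
  rw [tendsto_iff_dist_tendsto_zero] at hlim
  obtain ⟨n, hn⟩ := (hlim.eventually (gt_mem_nhds hδ)).exists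
  exact absurd hn (not_lt.2 (hxy (φ n) w ⟨hwC, hwX⟩))

end RightCont

/-! ### The four-level local rank -/

section LR4

variable {E : Type} [PseudoMetricSpace E]

/-- **Local rank with four levels** `s' < s < a < t' < t`. -/
def LR4 (X : ℝ → Set E) (a : ℝ) (K : Set E) (D : ℕ → ℕ) : Prop :=
  ∀ r > 0, ∃ r' > 0, ∃ e₀ > 0, ∀ s' s t' t, a - e₀ < s' → s' < s → s < a → a < t' → t' < t →
    t < a + e₀ → ∀ (k : Type) [Field k] (q : ℕ),
      rk id (1 : k) (nb K r ∩ X t) (nb K r ∩ X s) (nb K r' ∩ X t') (nb K r' ∩ X s') q ≤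
        (D q : Cardinal)

variable {X : ℝ → Set E} {a : ℝ} {K : Set E} {D D' : ℕ → ℕ}

theorem LR.to4 (h : LR X a K D) (hX : Monotone X) : LR4 X a K D := by
  intro r hr
  obtain ⟨r', hr', e₀, he₀, h1⟩ := h r hr
  refine ⟨r', hr', e₀, he₀, fun s' s t' t h2 h3 h4 h5 h6 h7 k _ q => ?_⟩
  refine le_trans (rk_mono le_rfl le_rfl ?_ ?_ q) (h1 s t (by linarith) h4 (by linarith) h7 k q)
  · exact inter_subset_inter_right _ (hX h6.le)
  · exact inter_subset_inter_right _ (hX h3.le)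

theorem LR4.mono (h : LR4 X a K D) (hD : ∀ q, D q ≤ D' q) : LR4 X a K D' := by
  intro r hr
  obtain ⟨r', hr', e₀, he₀, h1⟩ := h r hr
  exact ⟨r', hr', e₀, he₀, fun s' s t' t h2 h3 h4 h5 h6 h7 k _ q =>
    (h1 s' s t' t h2 h3 h4 h5 h6 h7 k q).trans (by exact_mod_cast hD q)⟩

/-- **Tautness**: four levels suffice. -/
theorem LR4.toLR (h : LR4 X a K D) (hK : IsCompact K) (hc : ∀ s, IsCompact (X s))
    (hcl : ∀ s, IsClosed (X s)) (hX : Monotone X)
    (hr : ∀ s x, (∀ t, s < t → x ∈ X t) → x ∈ X s) : LR X a K D := by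
  intro r hr0
  obtain ⟨r', hr', e₀, he₀, h1⟩ := h r hr0
  refine ⟨min r' r, lt_min hr' hr0, e₀, he₀, fun s t hs hs' ht ht' k _ q => ?_⟩
  have hcn : IsClosed (nb K r) := isClosed_nb hK hr0.le
  refine rk_le_of_approx (inter_subset_inter_right _ (hX (hs'.le.trans ht.le)))
    (inter_subset_inter_left _ (nb_mono le_rfl (min_le_right _ _)))
    (inter_subset_inter_left _ (nb_mono le_rfl (min_le_right _ _))) fun δ hδ => ?_
  obtain ⟨u, hu1, hu2, hu3⟩ := exists_gt_near hc hcl hX hr hcn ht' hδ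
  obtain ⟨v, hv1, hv2, hv3⟩ := exists_gt_near hc hcl hX hr hcn hs' hδ
  refine ⟨nb K r ∩ X u, nb K r ∩ X v, inter_subset_inter_right _ (hX hu1.le),
    inter_subset_inter_right _ (hX hv1.le), inter_subset_inter_right _ (hX (by linarith)),
    hu3 u hu1 le_rfl, hv3 v hv1 le_rfl, ?_⟩
  refine le_trans (rk_mono le_rfl le_rfl ?_ ?_ q) (h1 s v t u hs hv1 hv2 ht hu1 hu2 k q)
  · exact inter_subset_inter_left _ (nb_mono le_rfl (min_le_left _ _))
  · exact inter_subset_inter_left _ (nb_mono le_rfl (min_le_left _ _))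

end LR4

end Vale.Agent.P216.GM
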