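import Vale.Agent.P216.GM.LR4
import Vale.Agent.P216.GM.Spec
import Vale.Agent.P216.LS.Desc

/-!
# Four levels suffice for polygons and for loops (P216, block LOCAL)
-/

open Set

namespace Vale.Agent.P216.GM

open Vale.Agent.P265.AS Vale.Agent.P216.H41 L250 LS

variable {M : Type} [MetricSpace M]

theorem isCompact_PL [CompactSpace M] {K : ℕ} [NeZero K] (s : ℝ) : IsCompact (PL M K s) :=
  isCompact_Pl _

theorem isCompact_XL [CompactSpace M] (s : ℝ) : IsCompact (XL M s) :=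
  isCompact_XE (le_max_right _ _)

/-- The energy bound `max t 0 ^ 2` for all `t > s`. -/
theorem le_sq_of_forall {s e : ℝ} (h : ∀ t, s < t → e ≤ max t 0 ^ 2) : e ≤ max s 0 ^ 2 := by
  have hc : Continuous fun t : ℝ => max t 0 ^ 2 := by fun_prop
  have h1 : Filter.Tendsto (fun t : ℝ => max t 0 ^ 2) (nhdsWithin s (Ioi s))
      (nhds (max s 0 ^ 2)) := (hc.tendsto s).mono_left nhdsWithin_le_nhds
  exact ge_of_tendsto h1 (Filter.mem_of_superset self_mem_nhdsWithin fun t ht => h t ht)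

theorem PL_rc {K : ℕ} [NeZero K] (s : ℝ) (x : ZMod K → M) (h : ∀ t, s < t → x ∈ PL M K t) :
    x ∈ PL M K s := le_sq_of_forall h

theorem XL_rc (s : ℝ) (g : LM M) (h : ∀ t, s < t → g ∈ XL M t) : g ∈ XL M s := by
  refine hasE_of_forall_gt fun n => ?_
  have hc : Continuous fun t : ℝ => max t 0 ^ 2 := by fun_prop
  have h2 : ∃ t, s < t ∧ max t 0 ^ 2 ≤ max s 0 ^ 2 + 1 / ((n : ℝ) + 1) := by
    have h3 : ∀ᶠ t in nhdsWithin s (Ioi s), max t 0 ^ 2 < max s 0 ^ 2 + 1 / ((n : ℝ) + 1) :=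
      ((hc.tendsto s).mono_left nhdsWithin_le_nhds).eventually
        (gt_mem_nhds (lt_add_of_pos_right _ (by positivity)))
    obtain ⟨t, h4, h5⟩ := (h3.and self_mem_nhdsWithin).exists
    exact ⟨t, h5, h4.le⟩
  obtain ⟨t, ht, h3⟩ := h2
  exact HasE.mono (h t ht) h3

/-- Polygons: four levels suffice. -/
theorem LR4.toLR_PL [CompactSpace M] {K : ℕ} [NeZero K] {a : ℝ} {C : Set (ZMod K → M)}
    {D : ℕ → ℕ} (h : LR4 (PL M K) a C D) (hC : IsCompact C) : LR (PL M K) a C D :=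
  h.toLR hC isCompact_PL (fun _ => isClosed_Pl _) PL_mono PL_rc

/-- Loops: four levels suffice. -/
theorem LR4.toLR_XL [CompactSpace M] {a : ℝ} {C : Set (LM M)} {D : ℕ → ℕ}
    (h : LR4 (XL M) a C D) (hC : IsCompact C) : LR (XL M) a C D :=
  h.toLR hC isCompact_XL (fun _ => isClosed_XE) XL_mono XL_rc

/-- Sublevel sets of a continuous function on a compact set: four levels suffice. -/
theorem LR4.toLR_sublevel {E : Type} [MetricSpace E] {P : Set E} (hP : IsCompact P)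
    {f : E → ℝ} (hf : ContinuousOn f P) {a : ℝ} {C : Set E} {D : ℕ → ℕ}
    (h : LR4 (fun s => {x | x ∈ P ∧ f x ≤ s}) a C D) (hC : IsCompact C) :
    LR (fun s => {x | x ∈ P ∧ f x ≤ s}) a C D := by
  have hcl : ∀ s, IsCompact {x | x ∈ P ∧ f x ≤ s} := fun s => by
    have : IsClosed (P ∩ f ⁻¹' Iic s) := hf.preimage_isClosed_of_isClosed hP.isClosed isClosed_Iic
    exact hP.of_isClosed_subset this fun x hx => hx.1
  exact h.toLR hC hcl (fun s => (hcl s).isClosed) (fun s t hst x hx => ⟨hx.1, hx.2.trans hst⟩)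
    fun s x hx => ⟨(hx (s + 1) (by linarith)).1, le_of_forall_gt_imp_ge_of_dense
      fun t ht => (hx t ht).2⟩

end Vale.Agent.P216.GM
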