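import Vale.Agent.P216.GM.MVx
import Vale.Agent.P216.GM.Elim
import Mathlib.Analysis.Convex.Function
import Mathlib.Analysis.Convex.Topology

/-! Local ranks `H^p(S ∩ {F ≤ t}, S ∩ {F ≤ s}) → H^p(T ∩ {F ≤ t'}, T ∩ {F ≤ s'})` and the
elimination of variables in which `F` is convex or concave. -/

open Set Matrix

namespace Vale.Agent.P216.G447

open Vale.Agent.P265.AS Vale.Agent.P216.H41

/-! ### General facts -/

section general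

variable {E E' : Type} [PseudoMetricSpace E] [PseudoMetricSpace E'] {k : Type} [Field k]

theorem isCompact_sublevel {S : Set E} (hS : IsCompact S) {F : E → ℝ} (hF : ContinuousOn F S)
    (t : ℝ) : IsCompact (S ∩ {x | F x ≤ t}) := by
  obtain ⟨u, hu, h⟩ := continuousOn_iff_isClosed.1 hF (Iic t) isClosed_Iic
  have e : S ∩ {x | F x ≤ t} = S ∩ u := by
    ext x
    have := Set.ext_iff.1 h x
    simp only [mem_inter_iff, mem_preimage, mem_Iic, mem_ofPred_eq] at this ⊢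
    tauto
  rw [e]
  exact hS.inter_right hu

theorem uc_compact {S : Set E} (hS : IsCompact S) {f : E → E'} (hf : ContinuousOn f S) :
    ∀ ε > 0, ∃ δ > 0, ∀ x ∈ S, ∀ y ∈ S, dist x y < δ → dist (f x) (f y) < ε := by
  have h := hS.uniformContinuousOn_of_continuous hf
  rw [Metric.uniformContinuousOn_iff] at h
  intro ε hε
  obtain ⟨δ, hδ, h⟩ := h ε hε
  exact ⟨δ, hδ, fun x hx y hy hxy => h x hx y hy hxy⟩

theorem uc_compact_htpy {S : Set E} (hS : IsCompact S) {H : ℝ → E → E'}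
    (hH : ContinuousOn (fun q : ℝ × E => H q.1 q.2) (Icc (0 : ℝ) 1 ×ˢ S)) :
    ∀ ε > 0, ∃ δ > 0, ∀ s ∈ Icc (0 : ℝ) 1, ∀ t ∈ Icc (0 : ℝ) 1, ∀ x ∈ S, ∀ y ∈ S,
    |s - t| < δ → dist x y < δ → dist (H s x) (H t y) < ε := by
  have h := (isCompact_Icc.prod hS).uniformContinuousOn_of_continuous hH
  rw [Metric.uniformContinuousOn_iff] at h
  intro ε hε
  obtain ⟨δ, hδ, h⟩ := h ε hε
  refine ⟨δ, hδ, fun s hs t ht x hx y hy hst hxy => h (s, x) ⟨hs, hx⟩ (t, y) ⟨ht, hy⟩ ?_⟩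
  rw [Prod.dist_eq, max_lt_iff]
  exact ⟨by rwa [Real.dist_eq], hxy⟩

/-- Transport of ranks: the homotopy only has to stay in the big pair. -/
theorem rk_le_of_htpy {χ : k} {g : E → E} {g' : E' → E'} {X A Y B : Set E}
    {X' A' Y' B' : Set E'} {ι : E' → E} {π : E → E'}
    {H : ℝ → E → E} (hA' : A' ⊆ X') (hB : B ⊆ Y) (hι : IsMapP g' g X' A' X A ι)
    (hπ : IsMapP g g' Y B Y' B' π)
    (hH : IsHtpy g g Y B X A H) (h0 : ∀ x ∈ Y, H 0 x = x) (h1 : ∀ x ∈ Y, H 1 x = ι (π x))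
    (p : ℕ) : rk g χ X A Y B p ≤ rk g' χ X' A' Y' B' p := by
  refine qr_le_of_inj (pb ι) (fun c hc => pb_mem_Zs hι hA' hc) fun c hc hcB => ?_
  have e1 := pb_mem_Bs hπ hB hcB
  have e2 := homotopy hH hB hc
  have e3 := (Bs g χ Y B p).sub_mem e1 e2
  refine Bs_congr e3 one_pos fun x hx => ?_
  have a0 : H 0 ∘ x = x := funext fun i => h0 _ (hx.1 i)
  have a1 : H 1 ∘ x = ι ∘ π ∘ x := funext fun i => h1 _ (hx.1 i)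
  simp only [Pi.sub_apply, pb_apply, a0, a1]
  ring

/-- The rank of `H^p(S ∩ {F ≤ t}, S ∩ {F ≤ s}) → H^p(T ∩ {F ≤ t'}, T ∩ {F ≤ s'})`. -/
noncomputable def lrk (χ : k) (F : E → ℝ) (S : Set E) (t s : ℝ) (T : Set E) (t' s' : ℝ)
    (p : ℕ) : Cardinal :=
  rk id χ (S ∩ {x | F x ≤ t}) (S ∩ {x | F x ≤ s}) (T ∩ {x | F x ≤ t'}) (T ∩ {x | F x ≤ s'}) p

theorem lrk_congr {χ : k} {F F' : E → ℝ} {S T : Set E} (hS : ∀ x ∈ S, F x = F' x)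
    (hT : ∀ x ∈ T, F x = F' x) (t s t' s' : ℝ) (p : ℕ) :
    lrk χ F S t s T t' s' p = lrk χ F' S t s T t' s' p := by
  have h : ∀ {S : Set E} (_ : ∀ x ∈ S, F x = F' x) (t : ℝ),
      S ∩ {x | F x ≤ t} = S ∩ {x | F' x ≤ t} := by
    intro S hS t
    ext x
    simp only [mem_inter_iff, mem_ofPred_eq, and_congr_right_iff]
    intro hx
    rw [hS x hx]
  rw [lrk, lrk, h hS, h hS, h hT, h hT]

theorem lrk_mono {χ : k} {F : E → ℝ} {S S₁ T T₁ : Set E} {t s t₁ s₁ t' s' t₁' s₁' : ℝ}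
    (h1 : S₁ ⊆ S) (h2 : t₁ ≤ t) (h3 : s₁ ≤ s) (h4 : T ⊆ T₁) (h5 : t' ≤ t₁') (h6 : s' ≤ s₁')
    (p : ℕ) : lrk χ F S t s T t' s' p ≤ lrk χ F S₁ t₁ s₁ T₁ t₁' s₁' p := by
  have h : ∀ {S S₁ : Set E} {t t₁ : ℝ} (_ : S₁ ⊆ S) (_ : t₁ ≤ t),
      S₁ ∩ {x | F x ≤ t₁} ⊆ S ∩ {x | F x ≤ t} := fun h1 h2 _ hx => ⟨h1 hx.1, le_trans hx.2 h2⟩
  exact rk_mono (h h1 h2) (h h1 h3) (h h4 h5) (h h4 h6) p

/-- Transport of local ranks along maps which do not raise the level. -/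
theorem lrk_le_of_retract {χ : k} {F : E → ℝ} {F' : E' → ℝ} {S T : Set E} {S' T' : Set E'}
    {ψ : E' → E} {φ : E → E'} {H : ℝ → E → E} (cS' : IsCompact S') (cT : IsCompact T)
    (hψ : ContinuousOn ψ S') (hφ : ContinuousOn φ T)
    (hH : ContinuousOn (fun q : ℝ × E => H q.1 q.2) (Icc (0 : ℝ) 1 ×ˢ T))
    (hψS : ∀ x ∈ S', ψ x ∈ S ∧ F (ψ x) ≤ F' x) (hφT : ∀ x ∈ T, φ x ∈ T' ∧ F' (φ x) ≤ F x)
    (hHS : ∀ s ∈ Icc (0 : ℝ) 1, ∀ x ∈ T, H s x ∈ S ∧ F (H s x) ≤ F x)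
    (h0 : ∀ x ∈ T, H 0 x = x) (h1 : ∀ x ∈ T, H 1 x = ψ (φ x)) {t s t' s' : ℝ}
    (hst : s ≤ t) (hst' : s' ≤ t') (htt : t' ≤ t) (hss : s' ≤ s) (p : ℕ) :
    lrk χ F S t s T t' s' p ≤ lrk χ F' S' t s T' t' s' p := by
  refine rk_le_of_htpy (ι := ψ) (π := φ) (H := H) ?_ ?_ ?_ ?_ ?_ ?_ ?_ p
  · exact fun x hx => ⟨hx.1, le_trans hx.2 hst⟩
  · exact fun x hx => ⟨hx.1, le_trans hx.2 hst'⟩
  · refine ⟨fun x hx => ⟨(hψS x hx.1).1, le_trans (hψS x hx.1).2 hx.2⟩,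
      fun x hx => ⟨(hψS x hx.1).1, le_trans (hψS x hx.1).2 hx.2⟩, fun _ _ => rfl, fun ε hε => ?_⟩
    obtain ⟨δ, hδ, h⟩ := uc_compact cS' hψ ε hε
    exact ⟨δ, hδ, fun x hx y hy => h x hx.1 y hy.1⟩
  · refine ⟨fun x hx => ⟨(hφT x hx.1).1, le_trans (hφT x hx.1).2 hx.2⟩,
      fun x hx => ⟨(hφT x hx.1).1, le_trans (hφT x hx.1).2 hx.2⟩, fun _ _ => rfl, fun ε hε => ?_⟩
    obtain ⟨δ, hδ, h⟩ := uc_compact cT hφ ε hε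
    exact ⟨δ, hδ, fun x hx y hy => h x hx.1 y hy.1⟩
  · refine ⟨fun r hr x hx => ⟨(hHS r hr x hx.1).1,
      ((hHS r hr x hx.1).2.trans hx.2).trans htt⟩,
      fun r hr x hx => ⟨(hHS r hr x hx.1).1, ((hHS r hr x hx.1).2.trans hx.2).trans hss⟩,
      fun _ _ _ _ => rfl, fun ε hε => ?_⟩
    obtain ⟨δ, hδ, h⟩ := uc_compact_htpy cT hH ε hε
    exact ⟨δ, hδ, fun s hs t ht x hx y hy => h s hs t ht x hx.1 y hy.1⟩
  · exact fun x hx => h0 x hx.1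
  · exact fun x hx => h1 x hx.1

theorem lrk_le_of_equiv {χ : k} {F : E → ℝ} {F' : E' → ℝ} {S T : Set E} {S' T' : Set E'}
    {ψ : E' → E} {φ : E → E'} (cS' : IsCompact S') (cT : IsCompact T)
    (hψ : ContinuousOn ψ S') (hφ : ContinuousOn φ T)
    (hψS : ∀ x ∈ S', ψ x ∈ S ∧ F (ψ x) ≤ F' x) (hφT : ∀ x ∈ T, φ x ∈ T' ∧ F' (φ x) ≤ F x)
    (hTS : T ⊆ S) (hinv : ∀ x ∈ T, ψ (φ x) = x) {t s t' s' : ℝ}
    (hst : s ≤ t) (hst' : s' ≤ t') (htt : t' ≤ t) (hss : s' ≤ s) (p : ℕ) :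
    lrk χ F S t s T t' s' p ≤ lrk χ F' S' t s T' t' s' p :=
  lrk_le_of_retract (H := fun _ x => x) cS' cT hψ hφ continuous_snd.continuousOn hψS hφT
    (fun _ _ _ hx => ⟨hTS hx, le_rfl⟩) (fun _ _ => rfl) (fun x hx => (hinv x hx).symm)
    hst hst' htt hss p

end general

/-! ### Elimination of convex variables -/

section convex

variable {P N : Type} [PseudoMetricSpace P] [NormedAddCommGroup N] [NormedSpace ℝ N]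
  {k : Type} [Field k]

/-- Elimination of convex variables. -/
theorem lrk_elim_min {χ : k} {F : P × N → ℝ} {S T : Set P} {C : Set N} {m : P → N}
    (cS : IsCompact S) (cT : IsCompact T) (hTS : T ⊆ S) (cC : IsCompact C)
    (hconv : ∀ x ∈ T, ConvexOn ℝ C fun z => F (x, z))
    (hmC : ∀ x ∈ S, m x ∈ C) (hm : ContinuousOn m S)
    (hmin : ∀ x ∈ S, ∀ z ∈ C, F (x, m x) ≤ F (x, z)) {t s t' s' : ℝ}
    (hst : s ≤ t) (hst' : s' ≤ t') (htt : t' ≤ t) (hss : s' ≤ s) (p : ℕ) :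
    lrk χ F (S ×ˢ C) t s (T ×ˢ C) t' s' p ≤ lrk χ (fun x => F (x, m x)) S t s T t' s' p := by
  refine lrk_le_of_retract (ψ := fun x => (x, m x)) (φ := Prod.fst)
    (H := fun r x => (x.1, (1 - r) • x.2 + r • m x.1)) cS (cT.prod cC) ?_ ?_ ?_ ?_ ?_ ?_ ?_ ?_
    hst hst' htt hss p
  · exact continuousOn_id.prodMk hm
  · exact continuous_fst.continuousOn
  · have h1 : ContinuousOn (fun q : ℝ × P × N => m q.2.1) (Icc (0 : ℝ) 1 ×ˢ (T ×ˢ C)) :=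
      hm.comp (by fun_prop) fun q hq => hTS hq.2.1
    have h2 : ContinuousOn (fun q : ℝ × P × N => q.2.1) (Icc (0 : ℝ) 1 ×ˢ (T ×ˢ C)) := by
      fun_prop
    refine h2.prodMk ?_
    have h3 : ContinuousOn (fun q : ℝ × P × N => (1 - q.1) • q.2.2)
        (Icc (0 : ℝ) 1 ×ˢ (T ×ˢ C)) := by fun_prop
    exact h3.add (continuous_fst.continuousOn.smul h1)
  · exact fun x hx => ⟨⟨hx, hmC x hx⟩, le_rfl⟩
  · exact fun x hx => ⟨hx.1, hmin x.1 (hTS hx.1) x.2 hx.2⟩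
  · intro r hr x hx
    have hc := hconv x.1 hx.1
    have hmx := hmC x.1 (hTS hx.1)
    have h1 : (0 : ℝ) ≤ 1 - r := by linarith [hr.2]
    have h2 : (1 - r) + r = 1 := by ring
    refine ⟨⟨hTS hx.1, hc.1 hx.2 hmx h1 hr.1 h2⟩, ?_⟩
    have h3 := hc.2 hx.2 hmx h1 hr.1 h2
    have h4 := hmin x.1 (hTS hx.1) x.2 hx.2
    simp only [smul_eq_mul] at h3
    refine h3.trans ?_
    have h5 : r * F (x.1, m x.1) ≤ r * F (x.1, x.2) := mul_le_mul_of_nonneg_left h4 hr.1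
    have h6 : (1 - r) * F (x.1, x.2) + r * F (x.1, x.2) = F x := by
      rw [← add_mul, h2, one_mul]
    linarith
  · intro x _
    simp
  · intro x _
    simp

end convex

/-! ### Elimination of one concave variable -/

section concave

variable {P : Type} [PseudoMetricSpace P] {k : Type} [Field k]

private theorem push_half {χ : k} {F : P × ℝ → ℝ} {S : Set P} {ρ : ℝ} {ω : P → ℝ}
    (cS : IsCompact S) (hconc : ∀ x ∈ S, ConcaveOn ℝ (Icc (-ρ) ρ) fun w => F (x, w))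
    (hωC : ∀ x ∈ S, ω x ∈ Icc (-ρ) ρ)
    (hmax : ∀ x ∈ S, ∀ w ∈ Icc (-ρ) ρ, F (x, w) ≤ F (x, ω x)) {t s : ℝ}
    (hbd : ∀ x ∈ S, F (x, ρ) ≤ s) (hst : s ≤ t) (p : ℕ) :
    Zs id χ ((S ×ˢ Icc (-ρ) ρ ∩ {x | F x ≤ t}) ∩ {y | 0 ≤ y.2 - ω y.1})
      ((S ×ˢ Icc (-ρ) ρ ∩ {x | F x ≤ s}) ∩ {y | 0 ≤ y.2 - ω y.1}) p ≤
    Bs id χ ((S ×ˢ Icc (-ρ) ρ ∩ {x | F x ≤ t}) ∩ {y | 0 ≤ y.2 - ω y.1})
      ((S ×ˢ Icc (-ρ) ρ ∩ {x | F x ≤ s}) ∩ {y | 0 ≤ y.2 - ω y.1}) p := by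
  have key : ∀ r ∈ Icc (0 : ℝ) 1, ∀ τ : ℝ, ∀ x ∈ (S ×ˢ Icc (-ρ) ρ ∩ {x | F x ≤ τ}) ∩
      {y | 0 ≤ y.2 - ω y.1}, (x.1, (1 - r) * x.2 + r * ρ) ∈
      (S ×ˢ Icc (-ρ) ρ ∩ {x | F x ≤ τ}) ∩ {y | 0 ≤ y.2 - ω y.1} := by
    rintro r hr τ ⟨x, w⟩ ⟨⟨⟨hx, hw⟩, hF⟩, hu⟩
    change 0 ≤ w - ω x at hu
    change F (x, w) ≤ τ at hF
    change x ∈ S at hx
    change w ∈ Icc (-ρ) ρ at hw
    have hle : w ≤ (1 - r) * w + r * ρ := by nlinarith [hr.1, hw.2]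
    have hle' : (1 - r) * w + r * ρ ≤ ρ := by nlinarith [hr.1, hr.2, hw.2]
    have hmem : (1 - r) * w + r * ρ ∈ Icc (-ρ) ρ := ⟨hw.1.trans hle, hle'⟩
    refine ⟨⟨⟨hx, hmem⟩, ?_⟩, ?_⟩
    · change F (x, (1 - r) * w + r * ρ) ≤ τ
      have h1 := (hconc x hx).min_le_of_mem_Icc (hωC x hx) hmem ⟨by linarith, hle⟩
      have h2 : min (F (x, ω x)) (F (x, (1 - r) * w + r * ρ)) =
          F (x, (1 - r) * w + r * ρ) := min_eq_right (hmax x hx _ hmem)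
      rw [h2] at h1
      exact h1.trans hF
    · change 0 ≤ (1 - r) * w + r * ρ - ω x
      linarith
  refine Zs_le_Bs_of_push (H := fun r x => (x.1, (1 - r) * x.2 + r * ρ)) ?_ ?_ ?_ ?_ p
  · refine ⟨fun r hr x hx => key r hr t x hx, fun r hr x hx => key r hr s x hx,
      fun _ _ _ _ => rfl, fun ε hε => ?_⟩
    have hcont : ContinuousOn (fun q : ℝ × P × ℝ => (q.2.1, (1 - q.1) * q.2.2 + q.1 * ρ))
        (Icc (0 : ℝ) 1 ×ˢ (S ×ˢ Icc (-ρ) ρ)) := by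
      fun_prop
    obtain ⟨δ, hδ, h⟩ := uc_compact_htpy
      (H := fun (r : ℝ) (x : P × ℝ) => (x.1, (1 - r) * x.2 + r * ρ))
      (cS.prod isCompact_Icc) hcont ε hε
    exact ⟨δ, hδ, fun s hs t ht x hx y hy => h s hs t ht x hx.1.1 y hy.1.1⟩
  · exact fun x hx => ⟨⟨hx.1.1, le_trans hx.1.2 hst⟩, hx.2⟩
  · rintro ⟨x, w⟩ _
    simp
  · rintro ⟨x, w⟩ hx
    have h1 := key 1 ⟨zero_le_one, le_rfl⟩ t (x, w) hx
    refine ⟨⟨h1.1.1, ?_⟩, h1.2⟩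
    change F (x, (1 - 1) * w + 1 * ρ) ≤ s
    rw [sub_self, zero_mul, zero_add, one_mul]
    exact hbd x hx.1.1.1

private theorem push_half' {χ : k} {F : P × ℝ → ℝ} {S : Set P} {ρ : ℝ} {ω : P → ℝ}
    (cS : IsCompact S) (hconc : ∀ x ∈ S, ConcaveOn ℝ (Icc (-ρ) ρ) fun w => F (x, w))
    (hωC : ∀ x ∈ S, ω x ∈ Icc (-ρ) ρ)
    (hmax : ∀ x ∈ S, ∀ w ∈ Icc (-ρ) ρ, F (x, w) ≤ F (x, ω x)) {t s : ℝ}
    (hbd : ∀ x ∈ S, F (x, -ρ) ≤ s) (hst : s ≤ t) (p : ℕ) :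
    Zs id χ ((S ×ˢ Icc (-ρ) ρ ∩ {x | F x ≤ t}) ∩ {y | y.2 - ω y.1 ≤ 0})
      ((S ×ˢ Icc (-ρ) ρ ∩ {x | F x ≤ s}) ∩ {y | y.2 - ω y.1 ≤ 0}) p ≤
    Bs id χ ((S ×ˢ Icc (-ρ) ρ ∩ {x | F x ≤ t}) ∩ {y | y.2 - ω y.1 ≤ 0})
      ((S ×ˢ Icc (-ρ) ρ ∩ {x | F x ≤ s}) ∩ {y | y.2 - ω y.1 ≤ 0}) p := by
  have key : ∀ r ∈ Icc (0 : ℝ) 1, ∀ τ : ℝ, ∀ x ∈ (S ×ˢ Icc (-ρ) ρ ∩ {x | F x ≤ τ}) ∩
      {y | y.2 - ω y.1 ≤ 0}, (x.1, (1 - r) * x.2 + r * (-ρ)) ∈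
      (S ×ˢ Icc (-ρ) ρ ∩ {x | F x ≤ τ}) ∩ {y | y.2 - ω y.1 ≤ 0} := by
    rintro r hr τ ⟨x, w⟩ ⟨⟨⟨hx, hw⟩, hF⟩, hu⟩
    change w - ω x ≤ 0 at hu
    change F (x, w) ≤ τ at hF
    change x ∈ S at hx
    change w ∈ Icc (-ρ) ρ at hw
    have hle : (1 - r) * w + r * (-ρ) ≤ w := by nlinarith [hr.1, hw.1]
    have hle' : -ρ ≤ (1 - r) * w + r * (-ρ) := by nlinarith [hr.1, hr.2, hw.1]
    have hmem : (1 - r) * w + r * (-ρ) ∈ Icc (-ρ) ρ := ⟨hle', hle.trans hw.2⟩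
    refine ⟨⟨⟨hx, hmem⟩, ?_⟩, ?_⟩
    · change F (x, (1 - r) * w + r * (-ρ)) ≤ τ
      have h1 := (hconc x hx).min_le_of_mem_Icc hmem (hωC x hx) ⟨hle, by linarith⟩
      have h2 : min (F (x, (1 - r) * w + r * (-ρ))) (F (x, ω x)) =
          F (x, (1 - r) * w + r * (-ρ)) := min_eq_left (hmax x hx _ hmem)
      rw [h2] at h1
      exact h1.trans hF
    · change (1 - r) * w + r * (-ρ) - ω x ≤ 0
      linarith
  refine Zs_le_Bs_of_push (H := fun r x => (x.1, (1 - r) * x.2 + r * (-ρ))) ?_ ?_ ?_ ?_ p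
  · refine ⟨fun r hr x hx => key r hr t x hx, fun r hr x hx => key r hr s x hx,
      fun _ _ _ _ => rfl, fun ε hε => ?_⟩
    have hcont : ContinuousOn (fun q : ℝ × P × ℝ => (q.2.1, (1 - q.1) * q.2.2 + q.1 * (-ρ)))
        (Icc (0 : ℝ) 1 ×ˢ (S ×ˢ Icc (-ρ) ρ)) := by
      fun_prop
    obtain ⟨δ, hδ, h⟩ := uc_compact_htpy
      (H := fun (r : ℝ) (x : P × ℝ) => (x.1, (1 - r) * x.2 + r * (-ρ)))
      (cS.prod isCompact_Icc) hcont ε hε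
    exact ⟨δ, hδ, fun s hs t ht x hx y hy => h s hs t ht x hx.1.1 y hy.1.1⟩
  · exact fun x hx => ⟨⟨hx.1.1, le_trans hx.1.2 hst⟩, hx.2⟩
  · rintro ⟨x, w⟩ _
    simp
  · rintro ⟨x, w⟩ hx
    have h1 := key 1 ⟨zero_le_one, le_rfl⟩ t (x, w) hx
    refine ⟨⟨h1.1.1, ?_⟩, h1.2⟩
    change F (x, (1 - 1) * w + 1 * (-ρ)) ≤ s
    rw [sub_self, zero_mul, zero_add, one_mul]
    exact hbd x hx.1.1.1

/-- Elimination of one concave variable: the degree drops by one. -/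
theorem lrk_elim_max {χ : k} {F : P × ℝ → ℝ} {S T : Set P} {ρ : ℝ} {ω : P → ℝ}
    (cS : IsCompact S) (cT : IsCompact T) (hTS : T ⊆ S)
    (hF : ContinuousOn F (S ×ˢ Icc (-ρ) ρ))
    (hconc : ∀ x ∈ S, ConcaveOn ℝ (Icc (-ρ) ρ) fun w => F (x, w))
    (hωC : ∀ x ∈ S, ω x ∈ Icc (-ρ) ρ) (hω : ContinuousOn ω S)
    (hmax : ∀ x ∈ S, ∀ w ∈ Icc (-ρ) ρ, F (x, w) ≤ F (x, ω x)) {t s t' s' : ℝ}
    (hbd : ∀ x ∈ S, F (x, ρ) ≤ s ∧ F (x, -ρ) ≤ s)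
    (hst : s ≤ t) (hst' : s' ≤ t') (htt : t' ≤ t) (hss : s' ≤ s) (p : ℕ) :
    lrk χ F (S ×ˢ Icc (-ρ) ρ) t s (T ×ˢ Icc (-ρ) ρ) t' s' (p + 1) ≤
      lrk χ (fun x => F (x, ω x)) S t s T t' s' p := by
  have cW : ∀ τ, IsCompact ((T ×ˢ Icc (-ρ) ρ) ∩ {x | F x ≤ τ}) := fun τ =>
    isCompact_sublevel (cT.prod isCompact_Icc) (hF.mono (prod_mono hTS le_rfl)) τ
  have hu : ContinuousOn (fun y : P × ℝ => y.2 - ω y.1)
      ((T ×ˢ Icc (-ρ) ρ) ∩ {x | F x ≤ t'}) := by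
    have h1 : ContinuousOn (fun y : P × ℝ => ω y.1) ((T ×ˢ Icc (-ρ) ρ) ∩ {x | F x ≤ t'}) :=
      hω.comp continuous_fst.continuousOn fun y hy => hTS hy.1.1
    exact continuous_snd.continuousOn.sub h1
  refine (mv_rank_exact (u := fun y : P × ℝ => y.2 - ω y.1) ?_ ?_ ?_ (cW t') (cW s') hu
    (push_half cS hconc hωC hmax (fun x hx => (hbd x hx).1) hst (p + 1))
    (push_half' cS hconc hωC hmax (fun x hx => (hbd x hx).2) hst (p + 1))).trans ?_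
  · exact fun x hx => ⟨⟨hTS hx.1.1, hx.1.2⟩, le_trans hx.2 htt⟩
  · exact fun x hx => ⟨⟨hTS hx.1.1, hx.1.2⟩, le_trans hx.2 hss⟩
  · exact fun x hx => ⟨hx.1, le_trans hx.2 hst'⟩
  · have mem : ∀ {U : Set P} (_ : U ⊆ S) {τ : ℝ} {x : P}, x ∈ U ∩ {x | F (x, ω x) ≤ τ} →
        (x, ω x) ∈ (U ×ˢ Icc (-ρ) ρ ∩ {x | F x ≤ τ}) ∩ {y | y.2 - ω y.1 = 0} :=
      fun {_} hU {_ x} hx => ⟨⟨⟨hx.1, hωC x (hU hx.1)⟩, hx.2⟩, sub_self _⟩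
    have mem' : ∀ {U : Set P} {τ : ℝ} {y : P × ℝ},
        y ∈ (U ×ˢ Icc (-ρ) ρ ∩ {x | F x ≤ τ}) ∩ {y | y.2 - ω y.1 = 0} →
        y.1 ∈ U ∩ {x | F (x, ω x) ≤ τ} ∧ (y.1, ω y.1) = y := by
      intro U τ y hy
      have e : y.2 = ω y.1 := sub_eq_zero.1 hy.2
      have e' : (y.1, ω y.1) = y := by rw [← e]
      refine ⟨⟨hy.1.1.1, ?_⟩, e'⟩
      change F (y.1, ω y.1) ≤ τ
      rw [e']
      exact hy.1.2
    refine rk_le_of_htpy (ι := fun x => (x, ω x)) (π := Prod.fst) (H := fun _ y => y)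
      ?_ ?_ ?_ ?_ ?_ ?_ ?_ p
    · exact fun x hx => ⟨hx.1, le_trans hx.2 hst⟩
    · exact fun x hx => ⟨⟨hx.1.1, le_trans hx.1.2 hst'⟩, hx.2⟩
    · refine ⟨fun x hx => mem le_rfl hx, fun x hx => mem le_rfl hx, fun _ _ => rfl,
        fun ε hε => ?_⟩
      obtain ⟨δ, hδ, h⟩ := uc_compact cS (continuousOn_id.prodMk hω) ε hε
      exact ⟨δ, hδ, fun x hx y hy => h x hx.1 y hy.1⟩
    · refine ⟨fun x hx => (mem' hx).1, fun x hx => (mem' hx).1, fun _ _ => rfl,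
        fun ε hε => ⟨ε, hε, fun x _ y _ hxy => ?_⟩⟩
      exact (le_max_left _ _).trans_lt (by rwa [Prod.dist_eq] at hxy)
    · refine ⟨fun _ _ x hx => ?_, fun _ _ x hx => ?_, fun _ _ _ _ => rfl,
        fun ε hε => ⟨ε, hε, fun _ _ _ _ _ _ _ _ _ h => h⟩⟩
      · exact ⟨⟨⟨hTS hx.1.1.1, hx.1.1.2⟩, le_trans hx.1.2 htt⟩, hx.2⟩
      · exact ⟨⟨⟨hTS hx.1.1.1, hx.1.1.2⟩, le_trans hx.1.2 hss⟩, hx.2⟩
    · exact fun _ _ => rfl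
    · exact fun y hy => (mem' hy).2.symm

/-- Elimination of one concave variable: nothing in degree zero. -/
theorem lrk_elim_max_zero {χ : k} {F : P × ℝ → ℝ} {S T : Set P} {ρ : ℝ} {ω : P → ℝ}
    (cS : IsCompact S) (hTS : T ⊆ S)
    (hconc : ∀ x ∈ S, ConcaveOn ℝ (Icc (-ρ) ρ) fun w => F (x, w))
    (hωC : ∀ x ∈ S, ω x ∈ Icc (-ρ) ρ)
    (hmax : ∀ x ∈ S, ∀ w ∈ Icc (-ρ) ρ, F (x, w) ≤ F (x, ω x)) {t s t' s' : ℝ}
    (hbd : ∀ x ∈ S, F (x, ρ) ≤ s ∧ F (x, -ρ) ≤ s)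
    (hst : s ≤ t) (htt : t' ≤ t) :
    lrk χ F (S ×ˢ Icc (-ρ) ρ) t s (T ×ˢ Icc (-ρ) ρ) t' s' 0 = 0 := by
  rw [lrk, rk, qr_eq_zero_iff]
  intro c hc
  obtain ⟨bp, -, εp, hεp, h1, h2⟩ := push_half (χ := χ) cS hconc hωC hmax
    (fun x hx => (hbd x hx).1) hst 0 (Zs_restrict inter_subset_left inter_subset_left hc)
  obtain ⟨bm, -, εm, hεm, h3, h4⟩ := push_half' (χ := χ) cS hconc hωC hmax
    (fun x hx => (hbd x hx).2) hst 0 (Zs_restrict inter_subset_left inter_subset_left hc)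
  refine ⟨0, fun x _ => by simp, min εp εm, lt_min hεp hεm, fun x hx => ?_, fun _ _ => rfl⟩
  rw [d_zero, Pi.zero_apply]
  have hW : x 0 ∈ (S ×ˢ Icc (-ρ) ρ) ∩ {x | F x ≤ t} :=
    ⟨⟨hTS (hx.1 0).1.1, (hx.1 0).1.2⟩, le_trans (hx.1 0).2 htt⟩
  rcases le_total 0 ((x 0).2 - ω (x 0).1) with h | h
  · have hs : Sm ((S ×ˢ Icc (-ρ) ρ ∩ {x | F x ≤ t}) ∩ {y | 0 ≤ y.2 - ω y.1}) εp x := by
      refine ⟨fun i => ?_, fun i j => ?_⟩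
      · rw [Fin.fin_one_eq_zero i]; exact ⟨hW, h⟩
      · rw [Fin.fin_one_eq_zero i, Fin.fin_one_eq_zero j, dist_self]; exact hεp
    rw [h1 x hs, d_zero_apply]
    exact h2 _ ⟨fun i => i.elim0, fun i => i.elim0⟩
  · have hs : Sm ((S ×ˢ Icc (-ρ) ρ ∩ {x | F x ≤ t}) ∩ {y | y.2 - ω y.1 ≤ 0}) εm x := by
      refine ⟨fun i => ?_, fun i j => ?_⟩
      · rw [Fin.fin_one_eq_zero i]; exact ⟨hW, h⟩
      · rw [Fin.fin_one_eq_zero i, Fin.fin_one_eq_zero j, dist_self]; exact hεm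
    rw [h3 x hs, d_zero_apply]
    exact h4 _ ⟨fun i => i.elim0, fun i => i.elim0⟩

end concave

end Vale.Agent.P216.G447
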