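import Vale.Agent.P216.GM.Rk

/-! Mayer-Vietoris for closed covers without overlap, in rank form (tautness is built in). -/

open Set Matrix

namespace Vale.Agent.P216.G447

open Vale.Agent.P265.AS Vale.Agent.P216.H41

section

variable {E : Type} [PseudoMetricSpace E] {k : Type} [Field k] {χ : k}

theorem prism_congr {E' : Type} {f₀ f₁ g₀ g₁ : E → E'} {n : ℕ} {c : (Fin (n + 1) → E') → k}
    {x : Fin n → E} (h₀ : ∀ i, f₀ (x i) = g₀ (x i)) (h₁ : ∀ i, f₁ (x i) = g₁ (x i)) :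
    prism f₀ f₁ c x = prism g₀ g₁ c x := by
  induction n with
  | zero => rfl
  | succ n ih =>
    have e0 : f₀ (vecHead x) = g₀ (vecHead x) := h₀ 0
    have e1 : f₁ (vecHead x) = g₁ (vecHead x) := h₁ 0
    have e2 : f₁ ∘ vecTail x = g₁ ∘ vecTail x := funext fun i => h₁ i.succ
    rw [prism_succ_apply, prism_succ_apply, e0, e1, e2]
    congr 1
    exact ih (fun i => h₀ i.succ) fun i => h₁ i.succ

/-- Gluing two primitives. -/
theorem mv_glue {g : E → E} {W A : Set E} (hAW : A ⊆ W) (hgW : Inv g W) {u : E → ℝ} {η : ℝ}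
    (hη : 0 < η) (hu : ∃ δ > 0, ∀ x ∈ W, ∀ y ∈ W, dist x y < δ → |u x - u y| < η)
    (hug : ∀ x, u (g x) = u x) {p : ℕ} {c : (Fin (p + 2) → E) → k}
    {bp bm : (Fin (p + 1) → E) → k} {w : (Fin p → E) → k}
    (e1 : Eqv g χ (W ∩ {y | -η ≤ u y}) bp) (e2 : Eqv g χ (W ∩ {y | u y ≤ η}) bm)
    (hw : Eqv g χ (W ∩ {y | |u y| ≤ η}) w) {ε : ℝ} (hε : 0 < ε)
    (h1 : ∀ x, Sm (W ∩ {y | -η ≤ u y}) ε x → c x = d bp x)
    (h2 : ∀ x, Sm (W ∩ {y | u y ≤ η}) ε x → c x = d bm x)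
    (h3 : ∀ x, Sm (A ∩ {y | -η ≤ u y}) ε x → bp x = 0)
    (h4 : ∀ x, Sm (A ∩ {y | u y ≤ η}) ε x → bm x = 0)
    (h5 : ∀ x, Sm (W ∩ {y | |u y| ≤ η}) ε x → bp x - bm x = d w x)
    (h6 : ∀ x, Sm (A ∩ {y | |u y| ≤ η}) ε x → w x = 0) : c ∈ Bs g χ W A (p + 1) := by
  classical
  obtain ⟨δ, hδ, hu⟩ := hu
  set V : Set E := W ∩ {y | |u y| ≤ η} with hV
  have hgV : Inv g V := fun x => by
    constructor
    · rintro ⟨a, b⟩
      exact ⟨(hgW x).1 a, by simpa [hug] using b⟩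
    · rintro ⟨a, b⟩
      exact ⟨(hgW x).2 a, by simpa [hug] using b⟩
  set wb : (Fin p → E) → k := rs k V p w with hwb
  set ε₀ : ℝ := min ε δ with hε₀
  have hε₀p : 0 < ε₀ := lt_min hε hδ
  have l1 : ε₀ ≤ ε := min_le_left _ _
  have l3 : ε₀ ≤ δ := min_le_right _ _
  let b : (Fin (p + 1) → E) → k := fun x =>
    if ∀ i, -η ≤ u (x i) then bp x - d wb x else if ∀ i, u (x i) ≤ η then bm x else 0
  have bP : ∀ x : Fin (p + 1) → E, (∀ i, -η ≤ u (x i)) → b x = bp x - d wb x :=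
    fun x hx => if_pos hx
  have bN : ∀ x : Fin (p + 1) → E, (¬ ∀ i, -η ≤ u (x i)) → (∀ i, u (x i) ≤ η) → b x = bm x :=
    fun x hx hx' => (if_neg hx).trans (if_pos hx')
  have b0 : ∀ x : Fin (p + 1) → E, (¬ ∀ i, -η ≤ u (x i)) → (¬ ∀ i, u (x i) ≤ η) → b x = 0 :=
    fun x hx hx' => (if_neg hx).trans (if_neg hx')
  have bM : ∀ x : Fin (p + 1) → E, Sm (W ∩ {y | u y ≤ η}) ε₀ x → b x = bm x := by
    intro x hx
    by_cases hP : ∀ i, -η ≤ u (x i)
    · rw [bP x hP]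
      have hxV : Sm V ε x :=
        ⟨fun i => ⟨(hx.1 i).1, abs_le.2 ⟨hP i, (hx.1 i).2⟩⟩, fun i j => (hx.2 i j).trans_le l1⟩
      have a1 : d wb x = d w x := d_rs hxV.1
      rw [a1, ← h5 x hxV]
      ring
    · exact bN x hP fun i => (hx.1 i).2
  refine ⟨b, ?_, ε₀, hε₀p, ?_, ?_⟩
  · intro x hx
    by_cases hP : ∀ i, -η ≤ u (x i)
    · have hP' : ∀ i, -η ≤ u ((g ∘ x) i) := fun i => by
        change -η ≤ u (g (x i)); rw [hug]; exact hP i
      rw [bP _ hP', bP _ hP, e1 x fun i => ⟨hx i, hP i⟩]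
      have := (rs_eqv (X := W) hgV hw).d x hx
      rw [← hwb] at this
      rw [this]; ring
    · have hP' : ¬ ∀ i, -η ≤ u ((g ∘ x) i) := fun h => hP fun i => by
        have := h i
        change -η ≤ u (g (x i)) at this
        rwa [hug] at this
      by_cases hM : ∀ i, u (x i) ≤ η
      · have hM' : ∀ i, u ((g ∘ x) i) ≤ η := fun i => by
          change u (g (x i)) ≤ η; rw [hug]; exact hM i
        rw [bN _ hP' hM', bN _ hP hM]
        exact e2 x fun i => ⟨hx i, hM i⟩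
      · have hM' : ¬ ∀ i, u ((g ∘ x) i) ≤ η := fun h => hM fun i => by
          have := h i
          change u (g (x i)) ≤ η at this
          rwa [hug] at this
        rw [b0 _ hP' hM', b0 _ hP hM, mul_zero]
  · intro x hx
    rcases mv_small hη hu (hx.mono le_rfl l3) with h | h
    · have hxp : Sm (W ∩ {y | -η ≤ u y}) ε₀ x := ⟨h, hx.2⟩
      have a1 : d b x = d (bp - d wb) x := d_congr fun y hy => by
        rw [bP y fun i => ((hxp.sub hy).1 i).2]; rfl
      rw [a1, d_sub, d_d, sub_zero]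
      exact h1 x (hxp.mono le_rfl l1)
    · have hxm : Sm (W ∩ {y | u y ≤ η}) ε₀ x := ⟨h, hx.2⟩
      have a1 : d b x = d bm x := d_congr fun y hy => bM y (hxm.sub hy)
      rw [a1]
      exact h2 x (hxm.mono le_rfl l1)
  · intro x hx
    by_cases hP : ∀ i, -η ≤ u (x i)
    · rw [bP x hP, h3 x ⟨fun i => ⟨hx.1 i, hP i⟩, fun i j => (hx.2 i j).trans_le l1⟩,
        d_eq_zero, sub_zero]
      intro y hy
      by_cases hyV : ∀ i, y i ∈ V
      · rw [hwb, rs_of_mem hyV]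
        exact h6 y ⟨fun i => ⟨(hx.sub hy).1 i, (hyV i).2⟩,
          fun i j => ((hx.sub hy).2 i j).trans_le l1⟩
      · exact rs_of_notMem hyV
    · rcases mv_small hη hu (hx.mono hAW l3) with h | h
      · exact absurd (fun i => (h i).2) hP
      · rw [bN x hP fun i => (h i).2]
        exact h4 x ⟨fun i => ⟨hx.1 i, (h i).2⟩, fun i j => (hx.2 i j).trans_le l1⟩

/-- Points where `u` is small are close to zeros of `u`. -/
theorem near_zero {W : Set E} (hW : IsCompact W) {u : E → ℝ} (hu : ContinuousOn u W) {ε : ℝ}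
    (hε : 0 < ε) : ∃ η > 0, ∀ x ∈ W, |u x| ≤ η → ∃ y ∈ W, u y = 0 ∧ dist y x < ε := by
  set C : Set E := W ∩ ⋂ y ∈ W ∩ {y | u y = 0}, {x | ε ≤ dist y x} with hC
  have hCc : IsCompact C := by
    refine hW.inter_right (isClosed_biInter fun y _ => ?_)
    exact isClosed_le continuous_const (continuous_const.dist continuous_id)
  have hpos : ∀ x ∈ C, 0 < |u x| := by
    rintro x ⟨hxW, hx⟩
    rw [abs_pos]
    intro h0
    have := mem_iInter₂.1 hx x ⟨hxW, h0⟩
    change ε ≤ dist x x at this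
    rw [dist_self] at this
    linarith
  have key : ∃ η > 0, ∀ x ∈ C, η < |u x| := by
    rcases C.eq_empty_or_nonempty with h | h
    · exact ⟨1, one_pos, fun x hx => by rw [h] at hx; exact absurd hx (notMem_empty x)⟩
    · obtain ⟨x₀, hx₀, hmin⟩ := hCc.exists_isMinOn h ((hu.mono inter_subset_left).abs)
      refine ⟨|u x₀| / 2, half_pos (hpos x₀ hx₀), fun x hx => ?_⟩
      have h1 : |u x₀| ≤ |u x| := hmin hx
      have h2 := hpos x₀ hx₀
      linarith
  obtain ⟨η, hη, h⟩ := key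
  refine ⟨η, hη, fun x hx hux => ?_⟩
  by_contra hno
  push Not at hno
  refine absurd (h x ⟨hx, mem_iInter₂.2 fun y hy => hno y hy.1 hy.2⟩) (not_lt.2 hux)

/-- **Exact Mayer-Vietoris, rank form.** `W = {0 ≤ u} ∪ {u ≤ 0}`; if both halves have no
cohomology in degree `p + 1`, the rank of `H^{p+1}(W, A) → H^{p+1}(W', A')` is at most the rank of
the restriction of `{u = 0}` in degree `p`. -/
theorem mv_rank_exact {W A W' A' : Set E} (hW' : W' ⊆ W) (hA' : A' ⊆ A)
    (hAW' : A' ⊆ W') (cW' : IsCompact W') (cA' : IsCompact A') {u : E → ℝ}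
    (hu : ContinuousOn u W') {p : ℕ}
    (hp : Zs id χ (W ∩ {y | 0 ≤ u y}) (A ∩ {y | 0 ≤ u y}) (p + 1) ≤
      Bs id χ (W ∩ {y | 0 ≤ u y}) (A ∩ {y | 0 ≤ u y}) (p + 1))
    (hm : Zs id χ (W ∩ {y | u y ≤ 0}) (A ∩ {y | u y ≤ 0}) (p + 1) ≤
      Bs id χ (W ∩ {y | u y ≤ 0}) (A ∩ {y | u y ≤ 0}) (p + 1)) :
    rk id χ W A W' A' (p + 1) ≤
      rk id χ (W ∩ {y | u y = 0}) (A ∩ {y | u y = 0}) (W' ∩ {y | u y = 0})
        (A' ∩ {y | u y = 0}) p := by
  classical
  refine qr_le_of_rel (mvRel id χ W A u 0 p) ?_ ?_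
  · intro c hc
    obtain ⟨bp, e1, εp, hεp, h1, h2⟩ := hp (Zs_restrict inter_subset_left inter_subset_left hc)
    obtain ⟨bm, e2, εm, hεm, h3, h4⟩ := hm (Zs_restrict inter_subset_left inter_subset_left hc)
    have hneg : {y | -(0 : ℝ) ≤ u y} = {y | 0 ≤ u y} := by simp
    refine ⟨bp - bm, ⟨?_, min εp εm, lt_min hεp hεm, ?_, ?_⟩, bp, bm, rfl, by rwa [hneg], e2,
      min εp εm, lt_min hεp hεm,
      fun x hx => h1 x ((by rwa [hneg] at hx : Sm (W ∩ {y | 0 ≤ u y}) _ x).mono le_rfl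
        (min_le_left _ _)),
      fun x hx => h3 x (hx.mono le_rfl (min_le_right _ _)),
      fun x hx => h2 x ((by rwa [hneg] at hx : Sm (A ∩ {y | 0 ≤ u y}) _ x).mono le_rfl
        (min_le_left _ _)),
      fun x hx => h4 x (hx.mono le_rfl (min_le_right _ _))⟩
    · intro x hx
      rw [Pi.sub_apply, Pi.sub_apply,
        e1 x fun i => ⟨(hx i).1, show 0 ≤ u (x i) from (hx i).2.symm.le⟩,
        e2 x fun i => ⟨(hx i).1, show u (x i) ≤ 0 from (hx i).2.le⟩]
      ring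
    · intro x hx
      have a1 : Sm (W ∩ {y | 0 ≤ u y}) εp x :=
        hx.mono (fun y hy => ⟨hy.1, show 0 ≤ u y from hy.2.symm.le⟩) (min_le_left _ _)
      have a2 : Sm (W ∩ {y | u y ≤ 0}) εm x :=
        hx.mono (fun y hy => ⟨hy.1, show u y ≤ 0 from hy.2.le⟩) (min_le_right _ _)
      rw [d_sub, Pi.sub_apply, ← h1 x a1, ← h3 x a2, sub_self]
    · intro x hx
      have a1 : Sm (A ∩ {y | 0 ≤ u y}) εp x :=
        hx.mono (fun y hy => ⟨hy.1, show 0 ≤ u y from hy.2.symm.le⟩) (min_le_left _ _)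
      have a2 : Sm (A ∩ {y | u y ≤ 0}) εm x :=
        hx.mono (fun y hy => ⟨hy.1, show u y ≤ 0 from hy.2.le⟩) (min_le_right _ _)
      rw [Pi.sub_apply, h2 x a1, h4 x a2, sub_self]
  · rintro c hc v ⟨w, hw, ε', hε', h5, h6⟩ ⟨bp, bm, hv, e1, e2, ε, hε, h1, h2, h3, h4⟩
    change v = bp - bm at hv
    change ∀ x, Sm (W ∩ {y | -(0 : ℝ) ≤ u y}) ε x → c x = d bp x at h1
    change ∀ x, Sm (W ∩ {y | u y ≤ 0}) ε x → c x = d bm x at h2
    rw [neg_zero] at e1 h1 h3
    by_cases hχ : χ = 1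
    swap
    · -- all equivariant cochains vanish
      obtain ⟨hc0, -⟩ := hc
      have hz : ∀ x : Fin (p + 2) → E, (∀ i, x i ∈ W) → c x = 0 := fun x hx => by
        have h := hc0 x hx
        rw [Function.id_comp] at h
        have h' : (1 - χ) * c x = 0 := by rw [sub_mul, one_mul, ← h, sub_self]
        rcases mul_eq_zero.1 h' with h'' | h''
        · exact absurd (sub_eq_zero.1 h'').symm hχ
        · exact h''
      exact ⟨0, fun x _ => by simp, 1, one_pos, fun x hx => by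
        rw [hz x fun i => hW' (hx.1 i), d_zero]; rfl, fun _ _ => rfl⟩
    subst hχ
    obtain ⟨-, ε'', hε'', h7, h8⟩ := hc
    -- the common scale
    set s : ℝ := min (min ε ε') ε'' with hs
    have hs0 : 0 < s := lt_min (lt_min hε hε') hε''
    have s1 : s ≤ ε := (min_le_left _ _).trans (min_le_left _ _)
    have s2 : s ≤ ε' := (min_le_left _ _).trans (min_le_right _ _)
    have s3 : s ≤ ε'' := min_le_right _ _
    obtain ⟨η₁, hη₁, hr₁⟩ := near_zero cW' hu (show 0 < s / 8 by positivity)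
    obtain ⟨η₂, hη₂, hr₂⟩ := near_zero cA' (hu.mono hAW') (show 0 < s / 8 by positivity)
    set η : ℝ := min η₁ η₂ with hη
    have hη0 : 0 < η := lt_min hη₁ hη₂
    have hex : ∀ x : E, ∃ y : E, (x ∈ W' → |u x| ≤ η → (y ∈ W' ∧ u y = 0 ∧ dist y x < s / 8 ∧
        (x ∈ A' → y ∈ A'))) := by
      intro x
      by_cases hxA : x ∈ A'
      · by_cases hux : |u x| ≤ η
        · obtain ⟨y, hy, hy0, hyd⟩ := hr₂ x hxA (hux.trans (min_le_right _ _))
          exact ⟨y, fun _ _ => ⟨hAW' hy, hy0, hyd, fun _ => hy⟩⟩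
        · exact ⟨x, fun _ h => absurd h hux⟩
      · by_cases hxW : x ∈ W'
        · by_cases hux : |u x| ≤ η
          · obtain ⟨y, hy, hy0, hyd⟩ := hr₁ x hxW (hux.trans (min_le_left _ _))
            exact ⟨y, fun _ _ => ⟨hy, hy0, hyd, fun h => absurd h hxA⟩⟩
          · exact ⟨x, fun _ h => absurd h hux⟩
        · exact ⟨x, fun h => absurd h hxW⟩
    choose r0 hr0 using hex
    -- retractions onto the halves
    let rp : E → E := fun x => if 0 ≤ u x then x else r0 x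
    let rm : E → E := fun x => if u x ≤ 0 then x else r0 x
    have rp_pos : ∀ x, 0 ≤ u x → rp x = x := fun x hx => if_pos hx
    have rm_neg : ∀ x, u x ≤ 0 → rm x = x := fun x hx => if_pos hx
    have hrp : ∀ x ∈ W', -η ≤ u x → rp x ∈ W' ∧ 0 ≤ u (rp x) ∧ dist (rp x) x < s / 8 ∧
        (x ∈ A' → rp x ∈ A') := by
      intro x hx hux
      by_cases h : 0 ≤ u x
      · rw [rp_pos x h]
        exact ⟨hx, h, by rw [dist_self]; positivity, fun h => h⟩
      · have e : rp x = r0 x := if_neg h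
        rw [e]
        have := hr0 x hx (abs_le.2 ⟨hux, by linarith [not_le.1 h]⟩)
        exact ⟨this.1, this.2.1.symm.le, this.2.2⟩
    have hrm : ∀ x ∈ W', u x ≤ η → rm x ∈ W' ∧ u (rm x) ≤ 0 ∧ dist (rm x) x < s / 8 ∧
        (x ∈ A' → rm x ∈ A') := by
      intro x hx hux
      by_cases h : u x ≤ 0
      · rw [rm_neg x h]
        exact ⟨hx, h, by rw [dist_self]; positivity, fun h => h⟩
      · have e : rm x = r0 x := if_neg h
        rw [e]
        have := hr0 x hx (abs_le.2 ⟨by linarith [not_le.1 h], hux⟩)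
        exact ⟨this.1, this.2.1.le, this.2.2⟩
    -- simplices with vertices in `x` and in a small perturbation of `x`
    have small : ∀ {n m : ℕ} {Y Y' : Set E} {r : E → E} {a b : ℝ}
        (_ : ∀ x ∈ Y, x ∈ Y') (_ : ∀ x ∈ Y, r x ∈ Y' ∧ dist (r x) x < s / 8) (_ : a + s / 4 ≤ b)
        {x : Fin n → E} (_ : Sm Y a x) {y : Fin m → E}
        (_ : ∀ i, ∃ j, y i = id (x j) ∨ y i = r (x j)), Sm Y' b y := by
      intro n m Y Y' r a b hY hr hab x hx y hy
      have hd : ∀ i, ∃ j, dist (y i) (x j) < s / 8 := fun i => by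
        obtain ⟨j, hj | hj⟩ := hy i
        · exact ⟨j, by rw [hj]; simpa using (by positivity : 0 < s / 8)⟩
        · exact ⟨j, by rw [hj]; exact (hr _ (hx.1 j)).2⟩
      refine ⟨fun i => ?_, fun i j => ?_⟩
      · obtain ⟨j, hj | hj⟩ := hy i
        · exact hj ▸ hY _ (hx.1 j)
        · exact hj ▸ (hr _ (hx.1 j)).1
      · obtain ⟨i', hi⟩ := hd i
        obtain ⟨j', hj⟩ := hd j
        have t1 := dist_triangle4 (y i) (x i') (x j') (y j)
        rw [dist_comm (x j') (y j)] at t1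
        have t2 := hx.2 i' j'
        linarith
    have smallr : ∀ {n : ℕ} {Y Y' : Set E} {r : E → E} {a b : ℝ}
        (_ : ∀ x ∈ Y, r x ∈ Y' ∧ dist (r x) x < s / 8) (_ : a + s / 4 ≤ b)
        {x : Fin n → E} (_ : Sm Y a x), Sm Y' b (r ∘ x) := by
      intro n Y Y' r a b hr hab x hx
      refine ⟨fun i => (hr _ (hx.1 i)).1, fun i j => ?_⟩
      have t1 := dist_triangle4 (r (x i)) (x i) (x j) (r (x j))
      rw [dist_comm (x j) (r (x j))] at t1
      have t2 := hx.2 i j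
      have t3 := (hr _ (hx.1 i)).2
      have t4 := (hr _ (hx.1 j)).2
      change dist (r (x i)) (r (x j)) < b
      linarith
    set Bp : (Fin (p + 1) → E) → k := pb rp bp - prism id rp c with hBp
    set Bm : (Fin (p + 1) → E) → k := pb rm bm - prism id rm c with hBm
    -- the halves
    have HP : ∀ x, Sm (W' ∩ {y | -η ≤ u y}) (s / 2) x → c x = d Bp x := by
      intro x hx
      have a1 : c (rp ∘ x) = d bp (rp ∘ x) := h1 _ (smallr (Y' := W ∩ {y | 0 ≤ u y})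
        (fun y hy => ⟨⟨hW' (hrp y hy.1 hy.2).1, (hrp y hy.1 hy.2).2.1⟩,
          (hrp y hy.1 hy.2).2.2.1⟩) (by linarith) hx)
      have a2 := d_prism id rp c x
      rw [prism_eq_zero (c := d c) id rp (x := x) fun y hy => h7 y (small (Y' := W)
        (fun z hz => hW' hz.1) (fun z hz => ⟨hW' (hrp z hz.1 hz.2).1, (hrp z hz.1 hz.2).2.2.1⟩)
        (by linarith) hx hy), add_zero, a1, Function.id_comp] at a2
      rw [hBp, d_sub, d_pb, Pi.sub_apply, pb_apply, a2]
      ring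
    have HM : ∀ x, Sm (W' ∩ {y | u y ≤ η}) (s / 2) x → c x = d Bm x := by
      intro x hx
      have a1 : c (rm ∘ x) = d bm (rm ∘ x) := h2 _ (smallr (Y' := W ∩ {y | u y ≤ 0})
        (fun y hy => ⟨⟨hW' (hrm y hy.1 hy.2).1, (hrm y hy.1 hy.2).2.1⟩,
          (hrm y hy.1 hy.2).2.2.1⟩) (by linarith) hx)
      have a2 := d_prism id rm c x
      rw [prism_eq_zero (c := d c) id rm (x := x) fun y hy => h7 y (small (Y' := W)
        (fun z hz => hW' hz.1) (fun z hz => ⟨hW' (hrm z hz.1 hz.2).1, (hrm z hz.1 hz.2).2.2.1⟩)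
        (by linarith) hx hy), add_zero, a1, Function.id_comp] at a2
      rw [hBm, d_sub, d_pb, Pi.sub_apply, pb_apply, a2]
      ring
    have HPA : ∀ x, Sm (A' ∩ {y | -η ≤ u y}) (s / 2) x → Bp x = 0 := by
      intro x hx
      have a1 : bp (rp ∘ x) = 0 := h3 _ (smallr (Y' := A ∩ {y | 0 ≤ u y})
        (fun y hy => ⟨⟨hA' ((hrp y (hAW' hy.1) hy.2).2.2.2 hy.1),
          (hrp y (hAW' hy.1) hy.2).2.1⟩, (hrp y (hAW' hy.1) hy.2).2.2.1⟩) (by linarith) hx)
      have a2 : prism id rp c x = 0 := prism_eq_zero id rp fun y hy => h8 y (small (Y' := A)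
        (fun z hz => hA' hz.1) (fun z hz => ⟨hA' ((hrp z (hAW' hz.1) hz.2).2.2.2 hz.1),
          (hrp z (hAW' hz.1) hz.2).2.2.1⟩) (by linarith) hx hy)
      rw [hBp, Pi.sub_apply, pb_apply, a1, a2, sub_zero]
    have HMA : ∀ x, Sm (A' ∩ {y | u y ≤ η}) (s / 2) x → Bm x = 0 := by
      intro x hx
      have a1 : bm (rm ∘ x) = 0 := h4 _ (smallr (Y' := A ∩ {y | u y ≤ 0})
        (fun y hy => ⟨⟨hA' ((hrm y (hAW' hy.1) hy.2).2.2.2 hy.1),
          (hrm y (hAW' hy.1) hy.2).2.1⟩, (hrm y (hAW' hy.1) hy.2).2.2.1⟩) (by linarith) hx)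
      have a2 : prism id rm c x = 0 := prism_eq_zero id rm fun y hy => h8 y (small (Y' := A)
        (fun z hz => hA' hz.1) (fun z hz => ⟨hA' ((hrm z (hAW' hz.1) hz.2).2.2.2 hz.1),
          (hrm z (hAW' hz.1) hz.2).2.2.1⟩) (by linarith) hx hy)
      rw [hBm, Pi.sub_apply, pb_apply, a1, a2, sub_zero]
    -- the overlap
    set D : (Fin (p + 1) → E) → k := Bp - Bm with hD
    have HD : ∀ x, Sm (W' ∩ {y | |u y| ≤ η}) (s / 2) x → d D x = 0 := by
      intro x hx
      rw [hD, d_sub, Pi.sub_apply,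
        ← HP x (hx.mono (fun y hy => ⟨hy.1, show -η ≤ u y from (abs_le.1 hy.2).1⟩) le_rfl),
        ← HM x (hx.mono (fun y hy => ⟨hy.1, show u y ≤ η from (abs_le.1 hy.2).2⟩) le_rfl),
        sub_self]
    have HDA : ∀ x, Sm (A' ∩ {y | |u y| ≤ η}) (s / 2) x → D x = 0 := by
      intro x hx
      rw [hD, Pi.sub_apply,
        HPA x (hx.mono (fun y hy => ⟨hy.1, show -η ≤ u y from (abs_le.1 hy.2).1⟩) le_rfl),
        HMA x (hx.mono (fun y hy => ⟨hy.1, show u y ≤ η from (abs_le.1 hy.2).2⟩) le_rfl),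
        sub_self]
    have HDV : ∀ y : Fin (p + 1) → E, Sm (W' ∩ {y | u y = 0}) s y → D y = d w y := by
      intro y hy
      have a1 : rp ∘ y = y := funext fun i => rp_pos _ (hy.1 i).2.symm.le
      have a2 : rm ∘ y = y := funext fun i => rm_neg _ (hy.1 i).2.le
      have a3 : prism id rp c y = prism id rm c y := prism_congr (fun _ => rfl) fun i => by
        rw [rp_pos _ (hy.1 i).2.symm.le, rm_neg _ (hy.1 i).2.le]
      rw [hD, Pi.sub_apply, hBp, hBm, Pi.sub_apply, Pi.sub_apply, pb_apply, pb_apply, a1, a2, a3,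
        ← h5 y (hy.mono le_rfl s2), hv, Pi.sub_apply]
      ring
    set w' : (Fin p → E) → k := pb r0 w - prism id r0 D with hw'
    have H0 : ∀ x, Sm (W' ∩ {y | |u y| ≤ η}) (s / 4) x → Bp x - Bm x = d w' x := by
      intro x hx
      have a1 : D (r0 ∘ x) = d w (r0 ∘ x) := HDV _ (smallr (Y' := W' ∩ {y | u y = 0})
        (fun y hy => ⟨⟨(hr0 y hy.1 hy.2).1, (hr0 y hy.1 hy.2).2.1⟩, (hr0 y hy.1 hy.2).2.2.1⟩)
        (by linarith) hx)
      have a2 := d_prism id r0 D x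
      rw [prism_eq_zero (c := d D) id r0 (x := x) fun y hy => HD y (small
        (Y' := W' ∩ {y | |u y| ≤ η}) (fun z hz => hz)
        (fun z hz => ⟨⟨(hr0 z hz.1 hz.2).1, by
          change |u (r0 z)| ≤ η
          rw [(hr0 z hz.1 hz.2).2.1, abs_zero]; exact hη0.le⟩, (hr0 z hz.1 hz.2).2.2.1⟩)
        (by linarith) hx hy), add_zero, a1, Function.id_comp] at a2
      have a3 : Bp x - Bm x = D x := rfl
      rw [a3, hw', d_sub, d_pb, Pi.sub_apply, pb_apply, a2]
      ring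
    have H0A : ∀ x, Sm (A' ∩ {y | |u y| ≤ η}) (s / 4) x → w' x = 0 := by
      intro x hx
      have a1 : w (r0 ∘ x) = 0 := h6 _ (smallr (Y' := A' ∩ {y | u y = 0})
        (fun y hy => ⟨⟨(hr0 y (hAW' hy.1) hy.2).2.2.2 hy.1, (hr0 y (hAW' hy.1) hy.2).2.1⟩,
          (hr0 y (hAW' hy.1) hy.2).2.2.1⟩) (by linarith) hx)
      have a2 : prism id r0 D x = 0 := prism_eq_zero id r0 fun y hy => HDA y (small
        (Y' := A' ∩ {y | |u y| ≤ η}) (fun z hz => hz)
        (fun z hz => ⟨⟨(hr0 z (hAW' hz.1) hz.2).2.2.2 hz.1, by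
          change |u (r0 z)| ≤ η
          rw [(hr0 z (hAW' hz.1) hz.2).2.1, abs_zero]; exact hη0.le⟩,
          (hr0 z (hAW' hz.1) hz.2).2.2.1⟩)
        (by linarith) hx hy)
      rw [hw', Pi.sub_apply, pb_apply, a1, a2, sub_zero]
    -- glue
    have eqv1 : ∀ {n : ℕ} {X : Set E} {b : (Fin n → E) → k}, Eqv id 1 X b := fun x _ => by
      rw [Function.id_comp, one_mul]
    have huc : ∃ δ > 0, ∀ x ∈ W', ∀ y ∈ W', dist x y < δ → |u x - u y| < η := by
      have h := cW'.uniformContinuousOn_of_continuous hu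
      rw [Metric.uniformContinuousOn_iff] at h
      obtain ⟨δ, hδ, h⟩ := h η hη0
      exact ⟨δ, hδ, fun x hx y hy hxy => by rw [← Real.dist_eq]; exact h x hx y hy hxy⟩
    exact mv_glue (g := id) (χ := (1 : k)) hAW' (fun _ => Iff.rfl) hη0 huc (fun _ => rfl)
      (bp := Bp) (bm := Bm) (w := w') eqv1 eqv1 eqv1 (show 0 < s / 4 by positivity)
      (fun x hx => HP x (hx.mono le_rfl (by linarith)))
      (fun x hx => HM x (hx.mono le_rfl (by linarith)))
      (fun x hx => HPA x (hx.mono le_rfl (by linarith)))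
      (fun x hx => HMA x (hx.mono le_rfl (by linarith))) H0 H0A

end

end Vale.Agent.P216.G447
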