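import Vale.Agent.P216.GM.Arc

/-!
# Local ranks along orbits of a circle action (P216, block LOCAL, F2)

If the local rank at a point `p` is at most `D` then the local rank along the orbit of `p` under a
continuous filtration preserving action of `ℝ`, `p` being periodic, is at most
`2 D q + 2 D (q - 1)`.
-/

open Set

namespace Vale.Agent.P216.GM

open Vale.Agent.P265.AS Vale.Agent.P216.H41

variable {E : Type} [MetricSpace E]

/-- A continuous filtration preserving action of `ℝ`. -/
structure RotOn (X : ℝ → Set E) (rot : ℝ → E → E) : Prop where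
  zero : ∀ x, rot 0 x = x
  add : ∀ s t x, rot (s + t) x = rot s (rot t x)
  maps : ∀ s t x, x ∈ X s → rot t x ∈ X s
  cont : ∀ s, ContinuousOn (fun q : ℝ × E => rot q.1 q.2) (univ ×ˢ X s)

variable {X : ℝ → Set E} {rot : ℝ → E → E} {a : ℝ} {p : E} {τ : ℝ} {D : ℕ → ℕ}

theorem RotOn.continuous_orbit (h : RotOn X rot) (hp : p ∈ X a) :
    Continuous fun t => rot t p := by
  have h1 : ContinuousOn (fun t : ℝ => ((t, p) : ℝ × E)) univ := by fun_prop
  have h2 := (h.cont a).comp h1 fun t _ => ⟨mem_univ _, hp⟩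
  exact continuousOn_univ.1 h2

theorem RotOn.comp_continuousOn (h : RotOn X rot) {Y : Type*} [TopologicalSpace Y] {S : Set Y}
    {s : ℝ} {f : Y → ℝ} {g : Y → E} (hf : ContinuousOn f S) (hg : ContinuousOn g S)
    (hm : MapsTo g S (X s)) : ContinuousOn (fun y => rot (f y) (g y)) S :=
  (h.cont s).comp (hf.prodMk hg) fun _ hy => ⟨mem_univ _, hm hy⟩

/-- Local ranks are invariant under the action. -/
theorem LR.rot_point (h : RotOn X rot) (hX : Monotone X) (hcpt : ∀ s, IsCompact (X s)) (hp : p ∈ X a)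
    (hLR : LR X a {p} D) (t : ℝ) : LR X a {rot t p} D := by
  have hX1 : X a ⊆ X (a + 1) := hX (by linarith)
  have hinv : ∀ t x, rot t (rot (-t) x) = x := fun t x => by
    rw [← h.add, add_neg_cancel, h.zero]
  have hinv' : ∀ t x, rot (-t) (rot t x) = x := fun t x => by
    rw [← h.add, neg_add_cancel, h.zero]
  refine hLR.of_continuousOn (F := rot (-t)) (G := rot t) (H := fun _ x => x) (r₀ := 1) (e₁ := 1)
    one_pos one_pos hX hX ((hcpt _).inter_left (isClosed_nb isCompact_singleton zero_le_one))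
    ((hcpt _).inter_left (isClosed_nb isCompact_singleton zero_le_one)) ?_ ?_ ?_ ?_ ?_ ?_ ?_ ?_
    ?_ ?_ ?_ ?_ ?_
  · exact singleton_subset_iff.2 (hX1 (h.maps _ _ _ hp))
  · exact singleton_subset_iff.2 (hX1 hp)
  · exact h.comp_continuousOn continuousOn_const continuousOn_id fun x hx => hx.2
  · exact h.comp_continuousOn continuousOn_const continuousOn_id fun x hx => hx.2
  · exact continuousOn_snd
  · rintro x rfl
    exact hinv' t p
  · rintro x rfl
    rfl
  · exact fun u _ x hx => hx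
  · exact fun s _ x _ hx => h.maps s _ x hx
  · exact fun s _ x _ hx => h.maps s _ x hx
  · exact fun s _ u _ x _ hx => hx
  · exact fun x _ => rfl
  · exact fun x _ => (hinv t x).symm

/-- **Arcs.** -/
theorem LR.arc (h : RotOn X rot) (hX : Monotone X) (hcpt : ∀ s, IsCompact (X s)) (hp : p ∈ X a)
    (hmin : ∀ t, rot t p = p → ∃ n : ℤ, t = n * τ) {α β t₀ : ℝ} (h1 : α ≤ t₀) (h2 : t₀ ≤ β)
    (h3 : β - α < τ) (hLR : LR X a {rot t₀ p} D) :
    LR X a ((fun t => rot t p) '' Icc α β) D := by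
  have hX1 : X a ⊆ X (a + 1) := hX (by linarith)
  have hγ := h.continuous_orbit hp
  have hτ : 0 < τ := by linarith
  have hKc : IsCompact ((fun t => rot t p) '' Icc α β) := isCompact_Icc.image hγ
  have hinj : ∀ s ∈ Icc α β, ∀ t ∈ Icc α β, rot s p = rot t p → s = t := by
    intro s hs t ht hst
    have e1 : rot (s - t) p = p := by
      have : rot (-t) (rot s p) = rot (-t) (rot t p) := by rw [hst]
      rw [← h.add, ← h.add, neg_add_cancel, h.zero] at this
      rwa [sub_eq_neg_add]
    obtain ⟨n, hn⟩ := hmin _ e1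
    have e2 : |(n : ℝ) * τ| < τ := by
      rw [← hn, abs_lt]
      constructor <;> linarith [hs.1, hs.2, ht.1, ht.2]
    have e3 : |(n : ℝ)| < 1 := by
      rw [abs_mul, abs_of_pos hτ] at e2
      by_contra hcon
      push Not at hcon
      nlinarith
    have e4 : n = 0 := by
      have : |n| < 1 := by exact_mod_cast e3
      exact Int.abs_lt_one_iff.1 this
    rw [e4, Int.cast_zero, zero_mul] at hn
    linarith
  -- the phase function
  obtain ⟨T, hT⟩ : ∃ T : C(E, ℝ), ∀ t ∈ Icc α β, T (rot t p) = t - t₀ := by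
    have hce : Topology.IsClosedEmbedding (fun t : Icc α β => rot (t : ℝ) p) := by
      refine Continuous.isClosedEmbedding (hγ.comp continuous_subtype_val) ?_
      intro s t hst
      exact Subtype.ext (hinj s s.2 t t.2 hst)
    obtain ⟨T, hT⟩ := ContinuousMap.exists_extension hce
      (⟨fun t : Icc α β => (t : ℝ) - t₀, by fun_prop⟩ : C(Icc α β, ℝ))
    refine ⟨T, fun t ht => ?_⟩
    have := DFunLike.congr_fun hT ⟨t, ht⟩
    exact this
  refine hLR.of_continuousOn (F := fun x => rot (-T x) x) (G := id)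
    (H := fun u x => rot (-(u * T x)) x) (r₀ := 1) (e₁ := 1)
    one_pos one_pos hX hX ((hcpt _).inter_left (isClosed_nb hKc zero_le_one))
    ((hcpt _).inter_left (isClosed_nb isCompact_singleton zero_le_one)) ?_ ?_ ?_ ?_ ?_ ?_ ?_ ?_
    ?_ ?_ ?_ ?_ ?_
  · rintro _ ⟨t, -, rfl⟩
    exact hX1 (h.maps _ _ _ hp)
  · exact singleton_subset_iff.2 (hX1 (h.maps _ _ _ hp))
  · exact h.comp_continuousOn (by fun_prop) continuousOn_id fun x hx => hx.2
  · exact continuousOn_id
  · exact h.comp_continuousOn (by fun_prop) continuousOn_snd fun x hx => hx.2.2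
  · rintro _ ⟨t, ht, rfl⟩
    change rot (-T (rot t p)) (rot t p) = rot t₀ p
    rw [hT t ht, ← h.add]
    congr 1
    ring
  · rintro _ rfl
    exact ⟨t₀, ⟨h1, h2⟩, rfl⟩
  · rintro u hu _ ⟨t, ht, rfl⟩
    refine ⟨-(u * (t - t₀)) + t, ⟨?_, ?_⟩, ?_⟩
    · nlinarith [hu.1, hu.2, ht.1, ht.2]
    · nlinarith [hu.1, hu.2, ht.1, ht.2]
    · change _ = rot (-(u * T (rot t p))) (rot t p)
      rw [hT t ht, ← h.add]
  · exact fun s _ x _ hx => h.maps s _ x hx
  · exact fun s _ x _ hx => hx
  · exact fun s _ u _ x _ hx => h.maps s _ x hx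
  · intro x _
    rw [zero_mul, neg_zero, h.zero]
  · intro x _
    change rot (-(1 * T x)) x = rot (-T x) x
    rw [one_mul]

/-- **F2.** From a point to its orbit. -/
theorem LR.orbit' (h : RotOn X rot) (hX : Monotone X) (hcpt : ∀ s, IsCompact (X s)) (hp : p ∈ X a)
    (hτ : 0 < τ) (hper : rot τ p = p) (hmin : ∀ t, rot t p = p → ∃ n : ℤ, t = n * τ)
    (hLR : LR X a {p} D) :
    LR X a (range fun t => rot t p)
      fun q => 2 * D q + 2 * (if q = 0 then 0 else D (q - 1)) := by
  have hγ := h.continuous_orbit hp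
  set γ : ℝ → E := fun t => rot t p with hγdef
  set σ : ℝ := τ / 10 with hσdef
  have hσ : 0 < σ := by positivity
  have hτσ : τ = 10 * σ := by rw [hσdef]; ring
  have hpn : ∀ n : ℤ, rot (n * τ) p = p := by
    have hnat : ∀ n : ℕ, rot (n * τ) p = p := by
      intro n
      induction n with
      | zero => rw [Nat.cast_zero, zero_mul, h.zero]
      | succ n ih =>
        rw [Nat.cast_succ, add_mul, one_mul, h.add, hper, ih]
    intro n
    obtain ⟨m, rfl | rfl⟩ := n.eq_nat_or_neg
    · exact_mod_cast hnat m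
    · have e1 : rot (-(m * τ)) (rot (m * τ) p) = p := by
        rw [← h.add, neg_add_cancel, h.zero]
      rw [hnat m] at e1
      rw [Int.cast_neg, Int.cast_natCast, neg_mul]
      exact e1
  have hγn : ∀ (t : ℝ) (n : ℤ), γ (t + n * τ) = γ t := by
    intro t n
    change rot (t + n * τ) p = rot t p
    rw [h.add, hpn]
  have heq : ∀ s t, γ s = γ t → ∃ n : ℤ, s - t = n * τ := by
    intro s t hst
    refine hmin _ ?_
    have : rot (-t) (rot s p) = rot (-t) (rot t p) := by
      change rot (-t) (γ s) = rot (-t) (γ t)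
      rw [hst]
    rw [← h.add, ← h.add, neg_add_cancel, h.zero] at this
    rwa [sub_eq_neg_add]
  have hpt : ∀ t, LR X a {rot t p} D := fun t => hLR.rot_point h hX hcpt hp t
  have hLA : LR X a (γ '' Icc (-σ) (6 * σ)) D :=
    LR.arc h hX hcpt hp hmin (t₀ := 0) (by linarith) (by linarith) (by linarith) (hpt 0)
  have hLB : LR X a (γ '' Icc (-(6 * σ)) σ) D :=
    LR.arc h hX hcpt hp hmin (t₀ := 0) (by linarith) (by linarith) (by linarith) (hpt 0)
  have hLC : LR X a (γ '' Icc (-σ) σ) D :=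
    LR.arc h hX hcpt hp hmin (t₀ := 0) (by linarith) (by linarith) (by linarith) (hpt 0)
  have hLE : LR X a (γ '' Icc (4 * σ) (6 * σ)) D :=
    LR.arc h hX hcpt hp hmin (t₀ := 5 * σ) (by linarith) (by linarith) (by linarith)
      (hpt (5 * σ))
  have hcI : ∀ α β, IsCompact (γ '' Icc α β) := fun α β => isCompact_Icc.image hγ
  have hdisj : Disjoint (γ '' Icc (-σ) σ) (γ '' Icc (4 * σ) (6 * σ)) := by
    rw [Set.disjoint_left]
    rintro _ ⟨s, hs, rfl⟩ ⟨t, ht, hst⟩
    obtain ⟨n, hn⟩ := heq t s hst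
    rw [hτσ] at hn
    have e1 : (0 : ℝ) < n := by
      by_contra hcon
      push Not at hcon
      nlinarith [hs.1, hs.2, ht.1, ht.2]
    have e2 : (n : ℝ) < 1 := by
      by_contra hcon
      push Not at hcon
      nlinarith [hs.1, hs.2, ht.1, ht.2]
    have e3 : 0 < n := by exact_mod_cast e1
    have e4 : n < 1 := by exact_mod_cast e2
    omega
  have hLCE := LR.union_disjoint hX (hcI _ _) (hcI _ _) hdisj hLC hLE
  have hinter : γ '' Icc (-σ) (6 * σ) ∩ γ '' Icc (-(6 * σ)) σ =
      γ '' Icc (-σ) σ ∪ γ '' Icc (4 * σ) (6 * σ) := by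
    ext x
    constructor
    · rintro ⟨⟨s, hs, rfl⟩, t, ht, hst⟩
      obtain ⟨n, hn⟩ := heq s t hst.symm
      rw [hτσ] at hn
      have e1 : (-1 : ℝ) < n := by
        by_contra hcon
        push Not at hcon
        nlinarith [hs.1, hs.2, ht.1, ht.2]
      have e2 : (n : ℝ) < 2 := by
        by_contra hcon
        push Not at hcon
        nlinarith [hs.1, hs.2, ht.1, ht.2]
      have e3 : -1 < n := by exact_mod_cast e1
      have e4 : n < 2 := by exact_mod_cast e2
      have e5 : n = 0 ∨ n = 1 := by omega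
      rcases e5 with rfl | rfl
      · left
        rw [Int.cast_zero, zero_mul] at hn
        exact ⟨s, ⟨hs.1, by linarith [ht.2]⟩, rfl⟩
      · right
        rw [Int.cast_one, one_mul] at hn
        exact ⟨s, ⟨by linarith [ht.1], hs.2⟩, rfl⟩
    · rintro (⟨s, hs, rfl⟩ | ⟨s, hs, rfl⟩)
      · exact ⟨⟨s, ⟨hs.1, by linarith [hs.2]⟩, rfl⟩, s, ⟨by linarith [hs.1], hs.2⟩, rfl⟩
      · refine ⟨⟨s, ⟨by linarith [hs.1], hs.2⟩, rfl⟩, s - τ, ⟨?_, ?_⟩, ?_⟩
        · linarith [hs.1]
        · linarith [hs.2]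
        · have := hγn s (-1)
          rw [Int.cast_neg, Int.cast_one, neg_one_mul, ← sub_eq_add_neg] at this
          exact this
  have hunion : γ '' Icc (-σ) (6 * σ) ∪ γ '' Icc (-(6 * σ)) σ = range γ := by
    refine subset_antisymm (union_subset (image_subset_range _ _) (image_subset_range _ _)) ?_
    rintro _ ⟨t, rfl⟩
    set n : ℤ := ⌊(t + 4 * σ) / τ⌋ with hn
    have e1 : (n : ℝ) ≤ (t + 4 * σ) / τ := Int.floor_le _
    have e2 : (t + 4 * σ) / τ < n + 1 := Int.lt_floor_add_one _
    rw [le_div_iff₀ hτ] at e1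
    rw [div_lt_iff₀ hτ] at e2
    have e3 : γ (t - n * τ) = γ t := by
      have := hγn (t - n * τ) n
      rw [sub_add_cancel] at this
      exact this.symm
    rw [← e3]
    rcases le_or_gt (t - n * τ) σ with h4 | h4
    · right
      exact ⟨_, ⟨by linarith, h4⟩, rfl⟩
    · left
      exact ⟨_, ⟨by linarith, by nlinarith⟩, rfl⟩
  have hfin := LR.union' hX (hcI _ _) (hcI _ _) hLA hLB (D₃ := fun q => D q + D q)
    (by rw [hinter]; exact hLCE)
  rw [hunion] at hfin
  refine hfin.mono fun q => le_of_eq ?_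
  split_ifs
  · ring
  · ring

/-- **F2.** From a point to its orbit. -/
theorem LR.orbit (h : RotOn X rot) (hX : Monotone X) (hcpt : ∀ s, IsCompact (X s)) (hp : p ∈ X a)
    (hτ : 0 < τ) (hper : rot τ p = p) (hmin : ∀ t, rot t p = p → ∃ n : ℤ, t = n * τ)
    (hLR : LR X a {p} D) :
    LR X a (range fun t => rot t p) fun q => 2 * D q + 2 * D (q - 1) := by
  refine (LR.orbit' h hX hcpt hp hτ hper hmin hLR).mono fun q => ?_
  split_ifs
  · exact Nat.le_add_right _ _
  · exact le_rfl

end Vale.Agent.P216.GM
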