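import Vale.Agent.P216.H41.Fin3

/-! Ranks of restriction maps in Alexander-Spanier cohomology (language of `P265/H336`):
monotonicity, homotopy, Mayer-Vietoris. -/

open Set Matrix

namespace Vale.Agent.P216.G447

open Vale.Agent.P265.AS Vale.Agent.P216.H41

/-! ### Linear algebra -/

section LinearAlgebra

variable {k : Type} [Field k] {F₁ F₂ : Type} [AddCommGroup F₁] [Module k F₁]
  [AddCommGroup F₂] [Module k F₂]

/-- A linear relation version of `qr_le_of_inj`. -/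
theorem qr_le_of_rel {Z₁ B₁ : Submodule k F₁} {Z₂ B₂ : Submodule k F₂}
    (R : Submodule k (F₁ × F₂)) (hex : ∀ c ∈ Z₁, ∃ v ∈ Z₂, (c, v) ∈ R)
    (hinj : ∀ c ∈ Z₁, ∀ v ∈ B₂, (c, v) ∈ R → c ∈ B₁) : qr Z₁ B₁ ≤ qr Z₂ B₂ := by
  classical
  let b := Module.Basis.ofVectorSpace k Z₁
  choose v hv hR using fun i => hex (b i : F₁) (b i).2
  let T : Z₁ →ₗ[k] F₂ := b.constr k v
  have hTb : ∀ i, T (b i) = v i := fun i => b.constr_basis k v i
  have hT : ∀ c : Z₁, T c ∈ Z₂ ∧ ((c : F₁), T c) ∈ R := by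
    have htop : (Z₂.comap T) ⊓ (R.comap (LinearMap.prod Z₁.subtype T)) = ⊤ := by
      rw [eq_top_iff, ← b.span_eq, Submodule.span_le]
      rintro _ ⟨i, rfl⟩
      refine ⟨?_, ?_⟩
      · change T (b i) ∈ Z₂
        rw [hTb]; exact hv i
      · change (((b i : Z₁) : F₁), T (b i)) ∈ R
        rw [hTb]; exact hR i
    intro c
    have hc : c ∈ (Z₂.comap T) ⊓ (R.comap (LinearMap.prod Z₁.subtype T)) := by
      rw [htop]; trivial
    exact ⟨hc.1, hc.2⟩
  obtain ⟨T', hT'⟩ := LinearMap.exists_extend T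
  have hval : ∀ c (hc : c ∈ Z₁), T' c = T ⟨c, hc⟩ := fun c hc => by
    rw [← hT']; rfl
  refine qr_le_of_inj T' (fun c hc => ?_) (fun c hc hcB => ?_)
  · rw [hval c hc]; exact (hT ⟨c, hc⟩).1
  · rw [hval c hc] at hcB
    exact hinj c hc _ hcB (hT ⟨c, hc⟩).2

end LinearAlgebra

section

variable {E E' : Type} [PseudoMetricSpace E] [PseudoMetricSpace E'] {k : Type} [Field k]
  {g : E → E} {g' : E' → E'} {χ : k}

theorem rk_le_left {X A Y B : Set E} (h1 : Y ⊆ X) (h2 : B ⊆ A) (p : ℕ) :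
    rk g χ X A Y B p ≤ hh g χ X A p := rk_mono le_rfl le_rfl h1 h2 p

theorem rk_le_right {X A Y B : Set E} (h1 : Y ⊆ X) (h2 : B ⊆ A) (p : ℕ) :
    rk g χ X A Y B p ≤ hh g χ Y B p := rk_mono h1 h2 le_rfl le_rfl p

/-- Transport of ranks along maps `ι`, `π` with `ι ∘ π` homotopic to the identity of the small
pair. -/
theorem rk_le_of_retract {X A Y B : Set E} {X' A' Y' B' : Set E'} {ι : E' → E} {π : E → E'}
    {H : ℝ → E → E} (hA' : A' ⊆ X') (hB : B ⊆ Y) (hι : IsMapP g' g X' A' X A ι)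
    (hπ : IsMapP g g' Y B Y' B' π) (hBX : B ⊆ A) (hYX : Y ⊆ X)
    (hH : IsHtpy g g Y B Y B H) (h0 : ∀ x ∈ Y, H 0 x = x) (h1 : ∀ x ∈ Y, H 1 x = ι (π x))
    (p : ℕ) : rk g χ X A Y B p ≤ rk g' χ X' A' Y' B' p := by
  refine qr_le_of_inj (pb ι) (fun c hc => pb_mem_Zs hι hA' hc) fun c hc hcB => ?_
  have e1 := pb_mem_Bs hπ hB hcB
  have e2 := homotopy hH hB (Zs_restrict hYX hBX hc)
  have e3 := (Bs g χ Y B p).sub_mem e1 e2
  refine Bs_congr e3 one_pos fun x hx => ?_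
  have a0 : H 0 ∘ x = x := funext fun i => h0 _ (hx.1 i)
  have a1 : H 1 ∘ x = ι ∘ π ∘ x := funext fun i => h1 _ (hx.1 i)
  simp only [Pi.sub_apply, pb_apply, a0, a1]
  ring

/-- A pair which can be pushed into its second member has no cohomology. -/
theorem Zs_le_Bs_of_push {X A : Set E} {H : ℝ → E → E} (hH : IsHtpy g g X A X A H)
    (hA : A ⊆ X) (h0 : ∀ x ∈ X, H 0 x = x) (h1 : ∀ x ∈ X, H 1 x ∈ A) (p : ℕ) :
    Zs g χ X A p ≤ Bs g χ X A p := by
  rw [← hh_eq_zero_iff]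
  refine le_antisymm ?_ zero_le
  rw [← hh_self (g := g) (X := X) χ p]
  exact hh_le_of_push hH hA le_rfl h0 h1 χ p

/-! ### Mayer-Vietoris -/

/-- Data for the Mayer-Vietoris argument: `W = W⁺ ∪ W⁻` with overlap. -/
theorem mv_small {W : Set E} {u : E → ℝ} {η : ℝ} (hη : 0 < η) {δ : ℝ}
    (hu : ∀ x ∈ W, ∀ y ∈ W, dist x y < δ → |u x - u y| < η) {n : ℕ} {x : Fin n → E}
    (hx : Sm W δ x) : (∀ i, x i ∈ W ∩ {y | -η ≤ u y}) ∨ ∀ i, x i ∈ W ∩ {y | u y ≤ η} := by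
  by_cases h : ∀ i, x i ∈ W ∩ {y | -η ≤ u y}
  · exact Or.inl h
  · right
    push Not at h
    obtain ⟨i, hi⟩ := h
    intro j
    refine ⟨hx.1 j, ?_⟩
    have h1 : u (x i) < -η := by
      by_contra h2
      exact hi ⟨hx.1 i, not_lt.1 h2⟩
    have h2 := hu _ (hx.1 j) _ (hx.1 i) (hx.2 j i)
    have h3 := (abs_lt.1 h2).2
    change u (x j) ≤ η
    linarith

/-- The Mayer-Vietoris relation: `c = d b⁺` on `W⁺`, `c = d b⁻` on `W⁻`, `v = b⁺ - b⁻`. -/
def mvRel (g : E → E) (χ : k) (W A : Set E) (u : E → ℝ) (η : ℝ) (p : ℕ) :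
    Submodule k (((Fin (p + 2) → E) → k) × ((Fin (p + 1) → E) → k)) where
  carrier := {q | ∃ bp bm : (Fin (p + 1) → E) → k, q.2 = bp - bm ∧
    Eqv g χ (W ∩ {y | -η ≤ u y}) bp ∧ Eqv g χ (W ∩ {y | u y ≤ η}) bm ∧ ∃ ε > 0,
    (∀ x, Sm (W ∩ {y | -η ≤ u y}) ε x → q.1 x = d bp x) ∧
    (∀ x, Sm (W ∩ {y | u y ≤ η}) ε x → q.1 x = d bm x) ∧
    (∀ x, Sm (A ∩ {y | -η ≤ u y}) ε x → bp x = 0) ∧
    (∀ x, Sm (A ∩ {y | u y ≤ η}) ε x → bm x = 0)}
  zero_mem' := ⟨0, 0, by simp, fun x _ => by simp, fun x _ => by simp, 1, one_pos,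
    fun x _ => by rw [d_zero]; rfl, fun x _ => by rw [d_zero]; rfl, fun _ _ => rfl,
    fun _ _ => rfl⟩
  add_mem' := by
    rintro ⟨c, v⟩ ⟨c', v'⟩ ⟨bp, bm, hv, e1, e2, ε, hε, h1, h2, h3, h4⟩
      ⟨bp', bm', hv', e1', e2', ε', hε', h1', h2', h3', h4'⟩
    refine ⟨bp + bp', bm + bm', ?_, ?_, ?_, min ε ε', lt_min hε hε', ?_, ?_, ?_, ?_⟩
    · change v + v' = _
      change v = _ at hv
      change v' = _ at hv'
      rw [hv, hv']; abel
    · intro x hx
      rw [Pi.add_apply, Pi.add_apply, e1 x hx, e1' x hx]; ring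
    · intro x hx
      rw [Pi.add_apply, Pi.add_apply, e2 x hx, e2' x hx]; ring
    · intro x hx
      change c x + c' x = _
      rw [d_add, Pi.add_apply, ← h1 x (hx.mono le_rfl (min_le_left _ _)),
        ← h1' x (hx.mono le_rfl (min_le_right _ _))]
    · intro x hx
      change c x + c' x = _
      rw [d_add, Pi.add_apply, ← h2 x (hx.mono le_rfl (min_le_left _ _)),
        ← h2' x (hx.mono le_rfl (min_le_right _ _))]
    · intro x hx
      rw [Pi.add_apply, h3 x (hx.mono le_rfl (min_le_left _ _)),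
        h3' x (hx.mono le_rfl (min_le_right _ _)), add_zero]
    · intro x hx
      rw [Pi.add_apply, h4 x (hx.mono le_rfl (min_le_left _ _)),
        h4' x (hx.mono le_rfl (min_le_right _ _)), add_zero]
  smul_mem' := by
    rintro a ⟨c, v⟩ ⟨bp, bm, hv, e1, e2, ε, hε, h1, h2, h3, h4⟩
    refine ⟨a • bp, a • bm, ?_, ?_, ?_, ε, hε, ?_, ?_, ?_, ?_⟩
    · change a • v = _
      change v = _ at hv
      rw [hv, smul_sub]
    · intro x hx
      rw [Pi.smul_apply, Pi.smul_apply, e1 x hx, smul_eq_mul, smul_eq_mul]; ring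
    · intro x hx
      rw [Pi.smul_apply, Pi.smul_apply, e2 x hx, smul_eq_mul, smul_eq_mul]; ring
    · intro x hx
      change a • c x = _
      rw [d_smul, Pi.smul_apply, ← h1 x hx]
    · intro x hx
      change a • c x = _
      rw [d_smul, Pi.smul_apply, ← h2 x hx]
    · intro x hx
      rw [Pi.smul_apply, h3 x hx, smul_zero]
    · intro x hx
      rw [Pi.smul_apply, h4 x hx, smul_zero]

/-- **Mayer-Vietoris, rank form.** `W = W⁺ ∪ W⁻`, `W⁺ = {-η ≤ u}`, `W⁻ = {u ≤ η}`; if the pairs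
`(W⁺, A⁺)`, `(W⁻, A⁻)` have no cohomology in degree `p + 1`, the rank of
`H^{p+1}(W, A) → H^{p+1}(W', A')` is at most the rank of the restriction of the overlaps in
degree `p`. -/
theorem mv_rank {W A W' A' : Set E} (_hAW : A ⊆ W) (hW' : W' ⊆ W) (hA' : A' ⊆ A)
    (hAW' : A' ⊆ W') (hgW' : Inv g W') {u : E → ℝ} {η : ℝ} (hη : 0 < η)
    (hu : ∃ δ > 0, ∀ x ∈ W, ∀ y ∈ W, dist x y < δ → |u x - u y| < η)
    (hug : ∀ x, u (g x) = u x) {p : ℕ}
    (hp : Zs g χ (W ∩ {y | -η ≤ u y}) (A ∩ {y | -η ≤ u y}) (p + 1) ≤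
      Bs g χ (W ∩ {y | -η ≤ u y}) (A ∩ {y | -η ≤ u y}) (p + 1))
    (hm : Zs g χ (W ∩ {y | u y ≤ η}) (A ∩ {y | u y ≤ η}) (p + 1) ≤
      Bs g χ (W ∩ {y | u y ≤ η}) (A ∩ {y | u y ≤ η}) (p + 1)) :
    rk g χ W A W' A' (p + 1) ≤
      rk g χ (W ∩ {y | |u y| ≤ η}) (A ∩ {y | |u y| ≤ η}) (W' ∩ {y | |u y| ≤ η})
        (A' ∩ {y | |u y| ≤ η}) p := by
  classical
  obtain ⟨δ, hδ, hu⟩ := hu
  refine qr_le_of_rel (mvRel g χ W A u η p) ?_ ?_
  · intro c hc
    obtain ⟨bp, e1, εp, hεp, h1, h2⟩ := hp (Zs_restrict inter_subset_left inter_subset_left hc)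
    obtain ⟨bm, e2, εm, hεm, h3, h4⟩ := hm (Zs_restrict inter_subset_left inter_subset_left hc)
    refine ⟨bp - bm, ⟨?_, min εp εm, lt_min hεp hεm, ?_, ?_⟩, bp, bm, rfl, e1, e2, min εp εm,
      lt_min hεp hεm, fun x hx => h1 x (hx.mono le_rfl (min_le_left _ _)),
      fun x hx => h3 x (hx.mono le_rfl (min_le_right _ _)),
      fun x hx => h2 x (hx.mono le_rfl (min_le_left _ _)),
      fun x hx => h4 x (hx.mono le_rfl (min_le_right _ _))⟩
    · intro x hx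
      rw [Pi.sub_apply, Pi.sub_apply,
        e1 x fun i => ⟨(hx i).1, show -η ≤ u (x i) from (abs_le.1 (hx i).2).1⟩,
        e2 x fun i => ⟨(hx i).1, show u (x i) ≤ η from (abs_le.1 (hx i).2).2⟩]
      ring
    · intro x hx
      have a1 : Sm (W ∩ {y | -η ≤ u y}) εp x :=
        hx.mono (fun y hy => ⟨hy.1, show -η ≤ u y from (abs_le.1 hy.2).1⟩) (min_le_left _ _)
      have a2 : Sm (W ∩ {y | u y ≤ η}) εm x :=
        hx.mono (fun y hy => ⟨hy.1, show u y ≤ η from (abs_le.1 hy.2).2⟩) (min_le_right _ _)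
      rw [d_sub, Pi.sub_apply, ← h1 x a1, ← h3 x a2, sub_self]
    · intro x hx
      have a1 : Sm (A ∩ {y | -η ≤ u y}) εp x :=
        hx.mono (fun y hy => ⟨hy.1, show -η ≤ u y from (abs_le.1 hy.2).1⟩) (min_le_left _ _)
      have a2 : Sm (A ∩ {y | u y ≤ η}) εm x :=
        hx.mono (fun y hy => ⟨hy.1, show u y ≤ η from (abs_le.1 hy.2).2⟩) (min_le_right _ _)
      rw [Pi.sub_apply, h2 x a1, h4 x a2, sub_self]
  · rintro c hc v ⟨w, hw, ε', hε', h5, h6⟩ ⟨bp, bm, hv, e1, e2, ε, hε, h1, h2, h3, h4⟩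
    change v = bp - bm at hv
    change ∀ x, Sm (W ∩ {y | -η ≤ u y}) ε x → c x = d bp x at h1
    change ∀ x, Sm (W ∩ {y | u y ≤ η}) ε x → c x = d bm x at h2
    set V' : Set E := W' ∩ {y | |u y| ≤ η} with hV'
    have hgV' : Inv g V' := fun x => by
      constructor
      · rintro ⟨a, b⟩
        exact ⟨(hgW' x).1 a, by simpa [hug] using b⟩
      · rintro ⟨a, b⟩
        exact ⟨(hgW' x).2 a, by simpa [hug] using b⟩
    set wb : (Fin p → E) → k := rs k V' p w with hwb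
    set ε₀ : ℝ := min (min ε ε') δ with hε₀
    have hε₀p : 0 < ε₀ := lt_min (lt_min hε hε') hδ
    have l1 : ε₀ ≤ ε := (min_le_left _ _).trans (min_le_left _ _)
    have l2 : ε₀ ≤ ε' := (min_le_left _ _).trans (min_le_right _ _)
    have l3 : ε₀ ≤ δ := min_le_right _ _
    have huW' : ∀ x ∈ W', ∀ y ∈ W', dist x y < δ → |u x - u y| < η :=
      fun x hx y hy => hu x (hW' hx) y (hW' hy)
    let b : (Fin (p + 1) → E) → k := fun x =>
      if ∀ i, -η ≤ u (x i) then bp x - d wb x else if ∀ i, u (x i) ≤ η then bm x else 0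
    have bP : ∀ x : Fin (p + 1) → E, (∀ i, -η ≤ u (x i)) → b x = bp x - d wb x :=
      fun x hx => if_pos hx
    have bN : ∀ x : Fin (p + 1) → E, (¬ ∀ i, -η ≤ u (x i)) → (∀ i, u (x i) ≤ η) → b x = bm x :=
      fun x hx hx' => (if_neg hx).trans (if_pos hx')
    have b0 : ∀ x : Fin (p + 1) → E, (¬ ∀ i, -η ≤ u (x i)) → (¬ ∀ i, u (x i) ≤ η) → b x = 0 :=
      fun x hx hx' => (if_neg hx).trans (if_neg hx')
    have bM : ∀ x : Fin (p + 1) → E, Sm (W' ∩ {y | u y ≤ η}) ε₀ x → b x = bm x := by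
      intro x hx
      by_cases hP : ∀ i, -η ≤ u (x i)
      · rw [bP x hP]
        have hxV : Sm V' ε' x :=
          ⟨fun i => ⟨(hx.1 i).1, abs_le.2 ⟨hP i, (hx.1 i).2⟩⟩, fun i j => (hx.2 i j).trans_le l2⟩
        have a1 : d wb x = d w x := d_rs hxV.1
        have a2 := h5 x hxV
        rw [a1, ← a2, hv, Pi.sub_apply]
        ring
      · exact bN x hP fun i => (hx.1 i).2
    refine ⟨b, ?_, ε₀, hε₀p, ?_, ?_⟩
    · intro x hx
      have hx' : ∀ i, (g ∘ x) i ∈ W' := fun i => (hgW' _).2 (hx i)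
      by_cases hP : ∀ i, -η ≤ u (x i)
      · have hP' : ∀ i, -η ≤ u ((g ∘ x) i) := fun i => by
          change -η ≤ u (g (x i)); rw [hug]; exact hP i
        rw [bP _ hP', bP _ hP, e1 x fun i => ⟨hW' (hx i), hP i⟩]
        have := (rs_eqv (X := W') hgV' hw).d x hx
        rw [← hwb] at this
        rw [this]; ring
      · have hP' : ¬ ∀ i, -η ≤ u ((g ∘ x) i) := fun h => hP fun i => by
          have := h i
          change -η ≤ u (g (x i)) at this
          rwa [hug] at this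
        by_cases hM : ∀ i, u (x i) ≤ η
        · have hM' : ∀ i, u ((g ∘ x) i) ≤ η := fun i => by
            change u (g (x i)) ≤ η; rw [hug]; exact hM i
          rw [bN _ hP' hM', bN _ hP hM]
          exact e2 x fun i => ⟨hW' (hx i), hM i⟩
        · have hM' : ¬ ∀ i, u ((g ∘ x) i) ≤ η := fun h => hM fun i => by
            have := h i
            change u (g (x i)) ≤ η at this
            rwa [hug] at this
          rw [b0 _ hP' hM', b0 _ hP hM, mul_zero]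
    · intro x hx
      rcases mv_small hη huW' (hx.mono le_rfl l3) with h | h
      · have hxp : Sm (W' ∩ {y | -η ≤ u y}) ε₀ x := ⟨h, hx.2⟩
        have a1 : d b x = d (bp - d wb) x := d_congr fun y hy => by
          rw [bP y fun i => ((hxp.sub hy).1 i).2]; rfl
        rw [a1, d_sub, d_d, sub_zero]
        exact h1 x (hxp.mono (inter_subset_inter_left _ hW') l1)
      · have hxm : Sm (W' ∩ {y | u y ≤ η}) ε₀ x := ⟨h, hx.2⟩
        have a1 : d b x = d bm x := d_congr fun y hy => bM y (hxm.sub hy)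
        rw [a1]
        exact h2 x (hxm.mono (inter_subset_inter_left _ hW') l1)
    · intro x hx
      by_cases hP : ∀ i, -η ≤ u (x i)
      · rw [bP x hP, h3 x ⟨fun i => ⟨hA' (hx.1 i), hP i⟩, fun i j => (hx.2 i j).trans_le l1⟩,
          d_eq_zero, sub_zero]
        intro y hy
        by_cases hyV : ∀ i, y i ∈ V'
        · rw [hwb, rs_of_mem hyV]
          exact h6 y ⟨fun i => ⟨(hx.sub hy).1 i, (hyV i).2⟩,
            fun i j => ((hx.sub hy).2 i j).trans_le l2⟩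
        · exact rs_of_notMem hyV
      · rcases mv_small hη huW' (hx.mono hAW' l3) with h | h
        · exact absurd (fun i => (h i).2) hP
        · rw [bN x hP fun i => (h i).2]
          exact h4 x ⟨fun i => ⟨hA' (hx.1 i), (h i).2⟩, fun i j => (hx.2 i j).trans_le l1⟩

end

end Vale.Agent.P216.G447
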